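import Vale.Agent.N372B.Source
import Vale.Agent.P372W90.Main

/-! Protocols on diagonal states; no key from a source with a shadow. -/

open Matrix Kronecker Finset Filter Topology
open scoped ComplexOrder MatrixOrder

set_option linter.unusedSectionVars false

namespace Vale.Agent.N372B

open Vale.Agent.P372 hiding Protocol
open Vale.Agent.P372W

variable {A B E K J T : Type}

theorem locc_psd [Fintype K] {A B T : Type} {f : T → K → Matrix A A ℂ}
    {g : T → K → Matrix B B ℂ} (h : LOCC K A B T f g) : ∀ [Fintype A] [Fintype B],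
      (∀ t k, (f t k).PosSemidef) ∧ ∀ t k, (g t k).PosSemidef := by
  induction h with
  | output P Q hP hP1 hQ hQ1 => exact fun {_ _} => ⟨fun _ => hP, fun _ => hQ⟩
  | alice A' M R V hV T f g h ih =>
    exact fun {_ _} => ⟨fun t k => posSemidef_sum _ fun r _ =>
      ((ih t.1).1 t.2 k).conjTranspose_mul_mul_same _, fun t k => (ih t.1).2 t.2 k⟩
  | bob B' M R V hV T f g h ih =>
    exact fun {_ _} => ⟨fun t k => (ih t.1).1 t.2 k, fun t k => posSemidef_sum _ fun r _ =>
      ((ih t.1).2 t.2 k).conjTranspose_mul_mul_same _⟩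

theorem diag_le [Fintype E] [DecidableEq E] (X : Matrix E E ℂ) :
    ∑ i, |(X i i).re| ≤ trNorm X := by
  let d : E → ℝ := fun i => if 0 ≤ (X i i).re then 1 else -1
  have hd : ∀ i, (d i : ℂ) * (d i : ℂ) = 1 := fun i => by
    simp only [d]
    split_ifs <;> simp
  have hs : star (fun i => (d i : ℂ)) = fun i => (d i : ℂ) := by
    funext i
    simp
  have hC : Contr (diagonal fun i => (d i : ℂ)) := by
    constructor <;>
    · rw [diagonal_conjTranspose, hs, diagonal_mul_diagonal]
      simp only [hd, diagonal_one, sub_self]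
      exact PosSemidef.zero
  have h := norm_trace_mul_le hC X
  rw [trNorm_eq]
  refine le_trans (le_of_eq ?_) ((Complex.re_le_norm _).trans h)
  simp only [Matrix.trace, Matrix.diag, diagonal_mul, Complex.re_sum, Complex.re_ofReal_mul]
  refine sum_congr rfl fun i _ => ?_
  simp only [d]
  split_ifs with h
  · rw [abs_of_nonneg h, one_mul]
  · rw [abs_of_neg (not_le.mp h), neg_one_mul]

theorem isState_diag [Fintype E] [DecidableEq E] {P : E → ℝ} (hP : ∀ p, 0 ≤ P p)
    (hP1 : ∑ p, P p = 1) : IsState (diagState P) := by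
  refine ⟨posSemidef_diagonal_iff.2 fun i => by exact_mod_cast hP i, ?_⟩
  rw [diagState, trace_diagonal]
  exact_mod_cast hP1

variable [Fintype A] [DecidableEq A] [Fintype B] [DecidableEq B] [Fintype E] [DecidableEq E]

theorem blk_diag (M : Matrix A A ℂ) (N : Matrix B B ℂ) (P : (A × B) × E → ℝ) (e e' : E) :
    blk M N (diagState P) e e' =
      if e = e' then ∑ p : A × B, M p.1 p.1 * N p.2 p.2 * P (p, e) else 0 := by
  simp only [blk, of_apply, diagState, diagonal_apply, Prod.mk.injEq, ite_and, mul_ite, mul_zero,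
    sum_ite_eq, mem_univ, if_true, sum_ite_irrel, sum_const_zero]

theorem power_diag (n : ℕ) (P : (A × B) × E → ℝ) :
    power n (diagState P) = diagState (iid n P) := by
  ext p q
  simp only [power, diagState, of_apply, diagonal_apply, iid]
  split_ifs with h
  · subst h
    simp
  · by_contra h1
    refine h ?_
    have h2 := fun i => prod_ne_zero_iff.1 h1 i (mem_univ i)
    simp only [ne_eq, ite_eq_right_iff, Classical.not_imp, Prod.mk.injEq] at h2
    exact Prod.ext (Prod.ext (funext fun i => (h2 i).1.1.1) (funext fun i => (h2 i).1.1.2))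
      (funext fun i => (h2 i).1.2)

/-- On diagonal states every protocol acts through nonnegative local weights. -/
theorem exists_weights [Fintype K] [DecidableEq K] (π : Protocol K A B) :
    ∃ (α : π.Transcript → K → A → ℝ) (β : π.Transcript → K → B → ℝ), (∀ t k a, 0 ≤ α t k a) ∧
      (∀ t k b, 0 ≤ β t k b) ∧ ∀ (E : Type) [Fintype E] [DecidableEq E] (P : (A × B) × E → ℝ)
        (p : (K × K) × (E × π.Transcript)), (π.finalState (diagState P) p p).re =
          wt (fun u z => P (u, z)) (α p.2.2 p.1.1) (β p.2.2 p.1.2) p.2.1 := by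
  obtain ⟨f, g, h1, h2⟩ := π.exists_locc
  obtain ⟨h3, h4⟩ := locc_psd h1
  refine ⟨fun t k a => (f t k a a).re, fun t k b => (g t k b b).re,
    fun t k a => (Complex.nonneg_iff.1 (h3 t k).diag_nonneg).1,
    fun t k a => (Complex.nonneg_iff.1 (h4 t k).diag_nonneg).1, fun E _ _ P p => ?_⟩
  obtain ⟨⟨k, l⟩, e, t⟩ := p
  simp only [Protocol.finalState, of_apply, if_true, h2, blk_diag, wt, Complex.re_sum]
  refine sum_congr rfl fun u _ => ?_
  rw [Complex.re_mul_ofReal, Complex.mul_re, ← (Complex.nonneg_iff.1 (h3 t k).diag_nonneg).2,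
    zero_mul, sub_zero]

theorem trace_re {X : Matrix E E ℂ} (h : IsState X) : ∑ i, (X i i).re = 1 := by
  have := congrArg Complex.re h.2
  simpa only [Matrix.trace, Matrix.diag, Complex.re_sum, Complex.one_re] using this

theorem no_key [Fintype J] {P : (A × B) × E → ℝ} (hP : ∀ p, 0 ≤ P p) (hP1 : ∑ p, P p = 1)
    {a : J → A → ℝ} {b : J → B → ℝ} (h : Shadow (fun u z => P (u, z)) a b) {ℓ : ℕ} (hℓ : 1 ≤ ℓ)
    (π : Protocol (Fin ℓ → Bool) A B) {ε : ℝ} (hε : HasError π (diagState P) ε) : 2 / 3 ≤ ε := by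
  obtain ⟨m, rfl⟩ := Nat.exists_eq_add_of_le' hℓ
  obtain ⟨α, β, hα, hβ, hw⟩ := exists_weights π
  obtain ⟨σ, hσ, hε⟩ := hε
  have h1 := trace_re (isState_finalState π _ (isState_diag hP hP1))
  have h2 := (diag_le _).trans hε
  have h3 := trace_re hσ
  simp only [Matrix.sub_apply, Complex.sub_re, hw, kroneckerMap_apply, idealKey_apply,
    true_and] at h1 h2
  rw [Fintype.sum_prod_type_right, Fintype.sum_prod_type_right] at h1 h2
  rw [Fintype.sum_prod_type_right] at h3
  let G : (Fin (m + 1) → Bool) × (Fin (m + 1) → Bool) → Bool × Bool := fun q => (q.1 0, q.2 0)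
  let α' : π.Transcript → Bool → A → ℝ := fun t κ x => ∑ k, if k 0 = κ then α t k x else 0
  let β' : π.Transcript → Bool → B → ℝ := fun t κ x => ∑ k, if k 0 = κ then β t k x else 0
  have h4 : ∀ t z k l, wt (fun u z => P (u, z)) (α' t k) (β' t l) z =
      push G (fun q => wt (fun u z => P (u, z)) (α t q.1) (β t q.2) z) (k, l) := by
    intro t z k l
    simp only [wt, push, α', β', G, Prod.mk.injEq, Fintype.sum_mul_sum]
    simp only [sum_mul]
    rw [Finset.sum_comm, Fintype.sum_prod_type]
    refine sum_congr rfl fun q _ => ?_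
    rw [Finset.sum_comm]
    refine sum_congr rfl fun q' _ => ?_
    by_cases h1 : q 0 = k <;> by_cases h2 : q' 0 = l <;> simp [h1, h2]
  have h5 : ∀ (c : ℂ) k l, (if k = l then c.re / 2 else 0) = push G (fun q => ((if q.1 = q.2 then
      ((Fintype.card (Fin (m + 1) → Bool) : ℕ) : ℂ)⁻¹ else 0) * c).re) (k, l) := by
    intro c k l
    have e : ((Fintype.card (Fin (m + 1) → Bool) : ℕ) : ℂ)⁻¹ = (((2 : ℝ) ^ (m + 1))⁻¹ : ℝ) := by
      simp
    rw [e, push, Fintype.sum_prod_type, sum_congr rfl fun q _ =>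
      sum_eq_single q (fun q' _ hq => by simp [hq.symm]) (by simp), sum_cons]
    simp only [G, Fin.cons_zero, if_true, Complex.re_ofReal_mul, sum_const, card_univ,
      Fintype.card_fun, Fintype.card_bool, Fintype.card_fin, Fintype.sum_bool, Prod.mk.injEq]
    cases k <;> cases l <;> simp <;> field_simp <;> ring
  refine h.no_bit α' β' (fun t k x => sum_nonneg fun _ _ => ?_)
    (fun t k x => sum_nonneg fun _ _ => ?_) (fun t z => (σ (z, t) (z, t)).re) h3 ?_ ?_
  · split_ifs
    · exact hα _ _ _
    · exact le_rfl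
  · split_ifs
    · exact hβ _ _ _
    · exact le_rfl
  · refine Eq.trans (sum_congr rfl fun t _ => sum_congr rfl fun z _ => ?_) h1
    simp only [h4]
    rw [← Fintype.sum_prod_type']
    exact sum_push_one G _
  · refine le_trans (sum_le_sum fun t _ => sum_le_sum fun z _ => ?_) h2
    simp only [h4, h5]
    rw [← Fintype.sum_prod_type']
    exact push_l1 G _ _

end Vale.Agent.N372B
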