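import Vale.Agent.P372W90.Defs

/-!
# P372: secret key of tripartite states, intrinsic information, information of formation

States, protocols, final states and errors are those of `Vale/Agent/P372W90/Defs.lean`. Here the
state of `A B E` is arbitrary (pure or mixed); a probability law is a diagonal state.
-/

open Matrix Filter Topology Kronecker

namespace Vale.Agent.N372B

open Vale.Agent.P372W

variable {A B E X Y Z T : Type}

/-- The operator `ω^{⊗ n}` on `(A^n B^n) E^n`. -/
def power (n : ℕ) (ω : Matrix ((A × B) × E) ((A × B) × E) ℂ) :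
    Matrix (((Fin n → A) × (Fin n → B)) × (Fin n → E))
      (((Fin n → A) × (Fin n → B)) × (Fin n → E)) ℂ :=
  of fun p q => ∏ i, ω ((p.1.1 i, p.1.2 i), p.2 i) ((q.1.1 i, q.1.2 i), q.2 i)

/-- The distillable secret key `K_D` of the state `ω` of `A B E`, Eve holding `E`: the supremum of
`liminf ℓ n / n` over sequences of protocols on `ω^{⊗ n}` with errors tending to `0`. -/
noncomputable def keyRate [Fintype E] [DecidableEq E]
    (ω : Matrix ((A × B) × E) ((A × B) × E) ℂ) : EReal :=
  sSup {r | ∃ (ℓ : ℕ → ℕ) (ε : ℕ → ℝ)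
    (π : ∀ n, Protocol (Fin (ℓ n) → Bool) (Fin n → A) (Fin n → B)),
    (∀ n, HasError (π n) (power n ω) (ε n)) ∧ Tendsto ε atTop (𝓝 0) ∧
      r = liminf (fun n => (((ℓ n : ℝ) / (n : ℝ) : ℝ) : EReal)) atTop}

/-- A law on a finite set as a diagonal operator. -/
def diagState [DecidableEq X] (P : X → ℝ) : Matrix X X ℂ := diagonal fun x => (P x : ℂ)

/-- A classical channel (stochastic matrix) from `Z` to `T`. -/
def IsChannel [Fintype T] (W : Z → T → ℝ) : Prop := (∀ z t, 0 ≤ W z t) ∧ ∀ z, ∑ t, W z t = 1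

/-- The law of `(X, Y, T)`, where `(X, Y, Z)` has the law `P` and `T` is the output of the channel
`W` with input `Z`. -/
def degrade [Fintype Z] (P : (X × Y) × Z → ℝ) (W : Z → T → ℝ) : (X × Y) × T → ℝ :=
  fun p => ∑ z, P (p.1, z) * W z p.2

/-- The conditional mutual information `I(X; Y | T)` (natural logarithm) of the law `Q`. -/
noncomputable def condInfo [Fintype X] [Fintype Y] [Fintype T] (Q : (X × Y) × T → ℝ) : ℝ :=
  ∑ p, Q p * Real.log (Q p * (∑ u, Q (u, p.2)) /
    ((∑ y, Q ((p.1.1, y), p.2)) * ∑ x, Q ((x, p.1.2), p.2)))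

/-- The intrinsic information: the infimum of `I(X; Y | T)` over all channels from `Z` to finite
sets `T`. -/
noncomputable def intrinsic [Fintype X] [Fintype Y] [Fintype Z] (P : (X × Y) × Z → ℝ) : ℝ :=
  sInf {r | ∃ (m : ℕ) (W : Z → Fin m → ℝ), IsChannel W ∧ r = condInfo (degrade P W)}

/-- The law of `n` independent copies. -/
def iid (n : ℕ) (P : (X × Y) × Z → ℝ) : ((Fin n → X) × (Fin n → Y)) × (Fin n → Z) → ℝ :=
  fun p => ∏ i, P ((p.1.1 i, p.1.2 i), p.2 i)

/-- `n` copies of `P` are formed from `ℓ` secret bits with error `ε`: some protocol, run on the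
ideal key (Eve has nothing), ends with registers and a transcript which are `ε`-close to
`(X^n, Y^n, T)`, where `T` is made from `Z^n` by some channel. -/
def Forms [Fintype X] [DecidableEq X] [Fintype Z] (P : (X × X) × Z → ℝ) (n ℓ : ℕ) (ε : ℝ) : Prop :=
  ∃ (π : Protocol (Fin n → X) (Fin ℓ → Bool) (Fin ℓ → Bool))
    (W : (Fin n → Z) → π.Transcript → ℝ), IsChannel W ∧
      trNorm (π.finalState (idealKey ℓ ⊗ₖ (1 : Matrix Unit Unit ℂ)) -
        diagState fun p => degrade (iid n P) W (p.1, p.2.2)) ≤ ε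

/-- The information of formation: the infimum of `limsup ℓ n / n` over sequences of protocols
which form `n` copies of `P` from `ℓ n` secret bits with errors tending to `0`. -/
noncomputable def formRate [Fintype X] [DecidableEq X] [Fintype Z] (P : (X × X) × Z → ℝ) : EReal :=
  sInf {r | ∃ (ℓ : ℕ → ℕ) (ε : ℕ → ℝ), (∀ n, Forms P n (ℓ n) (ε n)) ∧ Tendsto ε atTop (𝓝 0) ∧
    r = limsup (fun n => (((ℓ n : ℝ) / (n : ℝ) : ℝ) : EReal)) atTop}

/-- The source: `(X, Y)` has a law on `(ℤ/3)²` proportional to `s ^ (2 d)`, `d ∈ {0, 1, 2}` the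
residue of `Y - X`; Eve gets the erasure symbol `none` with probability `e`, else `(X, Y)`. -/
noncomputable def source (s e : ℝ) : (Fin 3 × Fin 3) × Option (Fin 3 × Fin 3) → ℝ :=
  fun p => s ^ (2 * (p.1.2 - p.1.1).val) / (3 * (1 + s ^ 2 + s ^ 4)) *
    if p.2 = none then e else if p.2 = some p.1 then 1 - e else 0

end Vale.Agent.N372B
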