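import Mathlib

/-! A less informative observer who sees independent data: no key. -/

open Finset

namespace Vale.Agent.N372B

variable {U U' J Z X Y T : Type}

theorem sum_cons [Fintype U] {n : ℕ} (F : (Fin (n + 1) → U) → ℝ) :
    ∑ u, F u = ∑ a, ∑ u : Fin n → U, F (Fin.cons a u) := by
  rw [← (Fin.consEquiv fun _ : Fin (n + 1) => U).sum_comp, Fintype.sum_prod_type]
  rfl

/-- Every signed combination of the rows has a smaller variation for `r` than for `P`. -/
def Less [Fintype U] [Fintype J] [Fintype Z] (r : U → J → ℝ) (P : U → Z → ℝ) : Prop :=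
  ∀ φ : U → ℝ, ∑ j, |∑ u, φ u * r u j| ≤ ∑ z, |∑ u, φ u * P u z|

variable [Fintype U] [Fintype U'] [Fintype J] [Fintype Z] [Fintype X] [Fintype Y] [Fintype T]

theorem Less.comp {r : U → J → ℝ} {P : U → Z → ℝ} (h : Less r P) (e : U' ≃ U) :
    Less (fun u => r (e u)) fun u => P (e u) := by
  intro φ
  have h1 := h fun u => φ (e.symm u)
  have h2 : ∀ g : U → ℝ, ∑ u, φ (e.symm u) * g u = ∑ u, φ u * g (e u) := fun g => by
    rw [← e.sum_comp]
    simp
  simp only [h2] at h1
  exact h1

theorem Less.pow {r : U → J → ℝ} {P : U → Z → ℝ} (h : Less r P) (n : ℕ) :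
    Less (fun (u : Fin n → U) (j : Fin n → J) => ∏ i, r (u i) (j i))
      fun (u : Fin n → U) (z : Fin n → Z) => ∏ i, P (u i) (z i) := by
  induction n with
  | zero => intro φ; simp
  | succ n ih =>
    intro φ
    simp only [sum_cons, Fin.prod_univ_succ, Fin.cons_zero, Fin.cons_succ]
    calc ∑ j0, ∑ j : Fin n → J, |∑ a, ∑ u : Fin n → U,
            φ (Fin.cons a u) * (r a j0 * ∏ i, r (u i) (j i))|
        = ∑ j : Fin n → J, ∑ j0, |∑ a,
            (∑ u : Fin n → U, φ (Fin.cons a u) * ∏ i, r (u i) (j i)) * r a j0| := by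
          rw [Finset.sum_comm]
          refine sum_congr rfl fun j _ => sum_congr rfl fun j0 _ => ?_
          congr 1
          refine sum_congr rfl fun a _ => ?_
          rw [sum_mul]
          exact sum_congr rfl fun u _ => by ring
      _ ≤ ∑ j : Fin n → J, ∑ z0, |∑ a,
            (∑ u : Fin n → U, φ (Fin.cons a u) * ∏ i, r (u i) (j i)) * P a z0| :=
          sum_le_sum fun j _ => h _
      _ = ∑ z0, ∑ j : Fin n → J, |∑ u : Fin n → U,
            (∑ a, φ (Fin.cons a u) * P a z0) * ∏ i, r (u i) (j i)| := by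
          rw [Finset.sum_comm]
          refine sum_congr rfl fun z0 _ => sum_congr rfl fun j _ => ?_
          congr 1
          simp only [sum_mul]
          rw [Finset.sum_comm]
          exact sum_congr rfl fun u _ => sum_congr rfl fun a _ => by ring
      _ ≤ ∑ z0, ∑ z : Fin n → Z, |∑ u : Fin n → U,
            (∑ a, φ (Fin.cons a u) * P a z0) * ∏ i, P (u i) (z i)| :=
          sum_le_sum fun z0 _ => ih _
      _ = _ := by
          refine sum_congr rfl fun z0 _ => sum_congr rfl fun z _ => ?_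
          congr 1
          simp only [sum_mul]
          rw [Finset.sum_comm]
          exact sum_congr rfl fun a _ => sum_congr rfl fun u _ => by ring

/-- A shadow of `P`: a decomposition of the law of `(X, Y)` into products, less informative than
`Z`. -/
structure Shadow (P : X × Y → Z → ℝ) (a : J → X → ℝ) (b : J → Y → ℝ) : Prop where
  ha : ∀ j x, 0 ≤ a j x
  hb : ∀ j y, 0 ≤ b j y
  sum : ∀ u : X × Y, ∑ j, a j u.1 * b j u.2 = ∑ z, P u z
  less : Less (fun u j => a j u.1 * b j u.2) P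

theorem Shadow.pow {P : X × Y → Z → ℝ} {a : J → X → ℝ} {b : J → Y → ℝ} (h : Shadow P a b)
    (n : ℕ) :
    Shadow (fun (u : (Fin n → X) × (Fin n → Y)) (z : Fin n → Z) => ∏ i, P (u.1 i, u.2 i) (z i))
      (fun (j : Fin n → J) x => ∏ i, a (j i) (x i)) fun j y => ∏ i, b (j i) (y i) := by
  classical
  refine ⟨fun j x => prod_nonneg fun i _ => h.ha _ _, fun j y => prod_nonneg fun i _ => h.hb _ _,
    fun u => ?_, ?_⟩
  · simp only [← prod_mul_distrib]
    rw [← Fintype.piFinset_univ, ← Fintype.piFinset_univ,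
      ← prod_univ_sum (fun _ => univ) fun i j => a j (u.1 i) * b j (u.2 i),
      ← prod_univ_sum (fun _ => univ) fun i z => P (u.1 i, u.2 i) z]
    exact prod_congr rfl fun i _ => h.sum (u.1 i, u.2 i)
  · have h1 := (h.less.pow n).comp
      (Equiv.arrowProdEquivProdArrow (Fin n) (fun _ => X) fun _ => Y).symm
    simp only [← prod_mul_distrib]
    exact h1

theorem swap_ineq {p₀ p₁ q₀ q₁ : ℝ} (h₀ : 0 ≤ p₀) (h₁ : 0 ≤ p₁) (g₀ : 0 ≤ q₀) (g₁ : 0 ≤ q₁) :
    p₀ * q₀ + p₁ * q₁ - |p₀ * q₀ - p₁ * q₁| ≤ p₀ * q₁ + p₁ * q₀ := by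
  have key : ∀ {a b c d : ℝ}, 0 ≤ a → 0 ≤ c → 0 ≤ d → a ≤ b → a * b = c * d → 2 * a ≤ c + d := by
    intro a b c d ha hc hd hab he
    refine abs_le_of_sq_le_sq' (b := c + d) ?_ (by linarith) |>.2
    nlinarith [mul_le_mul_of_nonneg_left hab ha, sq_nonneg (c - d)]
  rcases le_total (p₀ * q₀) (p₁ * q₁) with h | h
  · rw [abs_of_nonpos (by linarith)]
    have := key (mul_nonneg h₀ g₀) (mul_nonneg h₀ g₁) (mul_nonneg h₁ g₀) h (by ring)
    linarith
  · rw [abs_of_nonneg (by linarith)]
    have := key (mul_nonneg h₁ g₁) (mul_nonneg h₀ g₁) (mul_nonneg h₁ g₀) h (by ring)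
    linarith

/-- The weight of the local filters `α`, `β` with Eve's symbol `z`. -/
def wt (P : X × Y → Z → ℝ) (α : X → ℝ) (β : Y → ℝ) (z : Z) : ℝ :=
  ∑ u : X × Y, α u.1 * β u.2 * P u z

theorem Shadow.core {P : X × Y → Z → ℝ} {a : J → X → ℝ} {b : J → Y → ℝ} (h : Shadow P a b)
    {α₀ α₁ : X → ℝ} {β₀ β₁ : Y → ℝ} (h₀ : ∀ x, 0 ≤ α₀ x) (h₁ : ∀ x, 0 ≤ α₁ x)
    (g₀ : ∀ y, 0 ≤ β₀ y) (g₁ : ∀ y, 0 ≤ β₁ y) :
    ∑ z, (wt P α₀ β₀ z + wt P α₁ β₁ z - |wt P α₀ β₀ z - wt P α₁ β₁ z|) ≤
      ∑ z, (wt P α₀ β₁ z + wt P α₁ β₀ z) := by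
  have hs : ∀ (α : X → ℝ) (β : Y → ℝ), ∑ z, wt P α β z =
      ∑ j, (∑ x, α x * a j x) * ∑ y, β y * b j y := fun α β => by
    simp only [wt]
    rw [Finset.sum_comm]
    simp only [← mul_sum, ← h.sum]
    simp only [mul_sum]
    rw [Finset.sum_comm]
    refine sum_congr rfl fun j _ => ?_
    rw [Fintype.sum_prod_type_right]
    refine sum_congr rfl fun y _ => ?_
    rw [sum_mul]
    exact sum_congr rfl fun x _ => by ring
  have h2 := h.less fun u => α₀ u.1 * β₀ u.2 - α₁ u.1 * β₁ u.2
  have h3 : ∀ z, ∑ u : X × Y, (α₀ u.1 * β₀ u.2 - α₁ u.1 * β₁ u.2) * P u z =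
      wt P α₀ β₀ z - wt P α₁ β₁ z := fun z => by
    simp only [wt, sub_mul, sum_sub_distrib]
  have h4 : ∀ j, ∑ u : X × Y, (α₀ u.1 * β₀ u.2 - α₁ u.1 * β₁ u.2) * (a j u.1 * b j u.2) =
      (∑ x, α₀ x * a j x) * (∑ y, β₀ y * b j y) -
        (∑ x, α₁ x * a j x) * ∑ y, β₁ y * b j y := fun j => by
    simp only [sum_mul_sum, ← sum_sub_distrib, Fintype.sum_prod_type]
    exact sum_congr rfl fun x _ => sum_congr rfl fun y _ => by ring
  simp only [h3, h4] at h2
  have h5 := sum_le_sum (s := univ) fun j (_ : j ∈ (univ : Finset J)) => swap_ineq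
    (sum_nonneg fun x (_ : x ∈ univ) => mul_nonneg (h₀ x) (h.ha j x))
    (sum_nonneg fun x (_ : x ∈ univ) => mul_nonneg (h₁ x) (h.ha j x))
    (sum_nonneg fun y (_ : y ∈ univ) => mul_nonneg (g₀ y) (h.hb j y))
    (sum_nonneg fun y (_ : y ∈ univ) => mul_nonneg (g₁ y) (h.hb j y))
  simp only [sum_sub_distrib, sum_add_distrib, hs] at h5 ⊢
  linarith

/-- No key bit with an error below `2 / 3`. -/
theorem Shadow.no_bit {P : X × Y → Z → ℝ} {a : J → X → ℝ} {b : J → Y → ℝ} (h : Shadow P a b)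
    (α : T → Bool → X → ℝ) (β : T → Bool → Y → ℝ) (hα : ∀ t k x, 0 ≤ α t k x)
    (hβ : ∀ t k y, 0 ≤ β t k y) (σ : T → Z → ℝ) (hσ : ∑ t, ∑ z, σ t z = 1)
    (h1 : ∑ t, ∑ z, ∑ k, ∑ l, wt P (α t k) (β t l) z = 1) {ε : ℝ}
    (hε : ∑ t, ∑ z, ∑ k, ∑ l,
      |wt P (α t k) (β t l) z - if k = l then σ t z / 2 else 0| ≤ ε) : 2 / 3 ≤ ε := by
  have h2 := sum_le_sum (s := univ) fun t (_ : t ∈ (univ : Finset T)) =>
    h.core (hα t false) (hα t true) (hβ t false) (hβ t true)
  have h3 : ∑ t, ∑ z, (∑ k, ∑ l, wt P (α t k) (β t l) z + σ t z -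
      3 * ∑ k, ∑ l, |wt P (α t k) (β t l) z - if k = l then σ t z / 2 else 0|) ≤
      ∑ t, ∑ z, 2 * ((wt P (α t false) (β t false) z + wt P (α t true) (β t true) z -
        |wt P (α t false) (β t false) z - wt P (α t true) (β t true) z|) -
        (wt P (α t false) (β t true) z + wt P (α t true) (β t false) z)) := by
    refine sum_le_sum fun t _ => sum_le_sum fun z _ => ?_
    simp only [Fintype.sum_bool, if_true, Bool.true_eq_false, Bool.false_eq_true, if_false,
      sub_zero]
    generalize wt P (α t false) (β t false) z = x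
    generalize wt P (α t true) (β t true) z = y
    generalize wt P (α t false) (β t true) z = u
    generalize wt P (α t true) (β t false) z = v
    generalize σ t z = s
    have a1 := le_abs_self u
    have a2 := le_abs_self v
    have a3 := le_abs_self (x - s / 2)
    have a4 := le_abs_self (y - s / 2)
    have a5 := neg_abs_le (x - s / 2)
    have a6 := neg_abs_le (y - s / 2)
    have a7 := abs_nonneg (x - s / 2)
    have a8 := abs_nonneg (y - s / 2)
    rcases abs_cases (x - y) with h | h <;> rw [h.1] <;> linarith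
  simp only [sum_sub_distrib, sum_add_distrib, ← mul_sum] at h2 h3
  linarith

/-- Erasure: if any two rows of a stochastic matrix share a column with entries at least `e`, it is
less informative than the erasure channel with erasure probability `e`. -/
theorem less_erasure [DecidableEq U] {r : U → J → ℝ} {p : U → ℝ} {e : ℝ} (he1 : e ≤ 1)
    (hp : ∀ u, 0 < p u) (hr : ∀ u j, 0 ≤ r u j) (hs : ∀ u, ∑ j, r u j = p u)
    (hov : ∀ u u', ∃ j, e * p u ≤ r u j ∧ e * p u' ≤ r u' j) (he : 0 ≤ e) :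
    Less r fun u (z : Option U) =>
      p u * if z = none then e else if z = some u then 1 - e else 0 := by
  classical
  intro φ
  set sg : J → ℝ := fun j => if 0 ≤ ∑ u, φ u * r u j then 1 else -1 with hsg
  have hsg1 : ∀ j, |sg j| = 1 := fun j => by
    simp only [hsg]
    split_ifs <;> simp
  set g : U → ℝ := fun u => (∑ j, sg j * r u j) / p u with hg
  have hnear : ∀ u j, e * p u ≤ r u j → |g u - sg j * e| ≤ 1 - e := by
    intro u j hj
    have e1 : g u - sg j * e =
        (sg j * (r u j - e * p u) + ∑ i ∈ univ.erase j, sg i * r u i) / p u := by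
      have := hp u
      simp only [hg]
      rw [← add_sum_erase univ _ (mem_univ j)]
      field_simp
      ring
    rw [e1, abs_div, abs_of_pos (hp u), div_le_iff₀ (hp u)]
    have e2 : |∑ i ∈ univ.erase j, sg i * r u i| ≤ ∑ i ∈ univ.erase j, r u i :=
      (abs_sum_le_sum_abs _ _).trans (le_of_eq (sum_congr rfl fun i _ => by
        rw [abs_mul, hsg1, one_mul, abs_of_nonneg (hr u i)]))
    have e3 := hs u
    rw [← add_sum_erase univ _ (mem_univ j)] at e3
    have e4 := abs_add_le (sg j * (r u j - e * p u)) (∑ i ∈ univ.erase j, sg i * r u i)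
    rw [abs_mul, hsg1, one_mul, abs_of_nonneg (sub_nonneg.mpr hj)] at e4
    linarith
  obtain ⟨c, hc, hcg⟩ : ∃ c : ℝ, |c| ≤ e ∧ ∀ u, |g u - c| ≤ 1 - e := by
    have hb : ∀ u, |g u| ≤ 1 := fun u => by
      obtain ⟨j, hj, -⟩ := hov u u
      have h1 := hnear u j hj
      have h2 := abs_add_le (g u - sg j * e) (sg j * e)
      rw [abs_mul, hsg1, one_mul, abs_of_nonneg he, sub_add_cancel] at h2
      linarith
    have ho : ∀ u u', g u - g u' ≤ 2 * (1 - e) := fun u u' => by
      obtain ⟨j, hj, hj'⟩ := hov u u'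
      have h1 := abs_le.mp (hnear u j hj)
      have h2 := abs_le.mp (hnear u' j hj')
      linarith
    rcases isEmpty_or_nonempty U with hU | hU
    · exact ⟨0, by simpa using he, fun u => hU.elim u⟩
    obtain ⟨m, hm⟩ := Finite.exists_max g
    refine ⟨max (g m - (1 - e)) (-e), abs_le.mpr ⟨le_max_right _ _, max_le ?_ (by linarith)⟩,
      fun u => abs_le.mpr ⟨?_, ?_⟩⟩
    · have := abs_le.mp (hb m)
      linarith
    · have h1 := ho m u
      have h2 := abs_le.mp (hb u)
      have : max (g m - (1 - e)) (-e) ≤ g u + (1 - e) := max_le (by linarith) (by linarith)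
      linarith
    · have h1 := hm u
      have := le_max_left (g m - (1 - e)) (-e)
      linarith
  have e1 : ∑ j, |∑ u, φ u * r u j| =
      c * ∑ u, φ u * p u + ∑ u, φ u * p u * (g u - c) := by
    have h1 : ∀ j, |∑ u, φ u * r u j| = ∑ u, φ u * (sg j * r u j) := fun j => by
      have : ∑ u, φ u * (sg j * r u j) = sg j * ∑ u, φ u * r u j := by
        rw [mul_sum]
        exact sum_congr rfl fun u _ => by ring
      rw [this]
      simp only [hsg]
      split_ifs with h
      · rw [abs_of_nonneg h, one_mul]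
      · rw [abs_of_neg (not_le.mp h), neg_one_mul]
    simp only [h1]
    rw [Finset.sum_comm, mul_sum, ← sum_add_distrib]
    refine sum_congr rfl fun u _ => ?_
    have := hp u
    rw [← mul_sum]
    simp only [hg]
    field_simp
    ring
  have e2 : ∑ z : Option U, |∑ u, φ u *
      (p u * if z = none then e else if z = some u then 1 - e else 0)| =
      e * |∑ u, φ u * p u| + ∑ u, |φ u * p u| * (1 - e) := by
    rw [Fintype.sum_option]
    congr 1
    · simp only [if_true, ← mul_assoc, ← sum_mul]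
      rw [abs_mul, abs_of_nonneg he, mul_comm]
    · refine sum_congr rfl fun v _ => ?_
      simp only [reduceCtorEq, if_false, Option.some.injEq, mul_ite, mul_zero, sum_ite_eq,
        mem_univ, if_true]
      rw [← mul_assoc, abs_mul, abs_of_nonneg (sub_nonneg.mpr he1)]
  rw [e1, e2]
  refine add_le_add ((le_abs_self _).trans ?_) (sum_le_sum fun u _ => (le_abs_self _).trans ?_)
  · rw [abs_mul]
    exact mul_le_mul_of_nonneg_right hc (abs_nonneg _)
  · rw [abs_mul]
    exact mul_le_mul_of_nonneg_left (hcg u) (abs_nonneg _)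

end Vale.Agent.N372B
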