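import Vale.Agent.N372B.Defs
import Vale.Agent.N372B.Noisy

/-! Entropies of functions on a finite probability space; the cost of forming a source. -/

open Finset

namespace Vale.Agent.N372B

variable {Ω α β γ σ : Type} [Fintype Ω] {w : Ω → ℝ}

open Classical in
/-- The image of the weight `w` under `f`. -/
noncomputable def push (f : Ω → α) (w : Ω → ℝ) (a : α) : ℝ := ∑ ω, if f ω = a then w ω else 0

/-- The entropy of `f`. -/
noncomputable def ent (w : Ω → ℝ) (f : Ω → α) : ℝ := -∑ ω, w ω * Real.log (push f w (f ω))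

/-- The conditional mutual information of `f`, `g` given `h`. -/
noncomputable def cmi (w : Ω → ℝ) (f : Ω → α) (g : Ω → β) (h : Ω → γ) : ℝ :=
  ent w (fun ω => (f ω, h ω)) + ent w (fun ω => (g ω, h ω)) -
    ent w (fun ω => ((f ω, g ω), h ω)) - ent w h

theorem push_nonneg (hw : ∀ ω, 0 ≤ w ω) (f : Ω → α) (a : α) : 0 ≤ push f w a :=
  sum_nonneg fun ω _ => by
    split_ifs
    · exact hw ω
    · exact le_rfl

theorem le_push (hw : ∀ ω, 0 ≤ w ω) (f : Ω → α) (ω : Ω) : w ω ≤ push f w (f ω) := by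
  classical
  refine le_trans (le_of_eq ?_) (single_le_sum (f := fun ω' => if f ω' = f ω then w ω' else 0)
    (fun ω' _ => ?_) (mem_univ ω))
  · rw [if_pos rfl]
  · split_ifs
    · exact hw ω'
    · exact le_rfl

theorem sum_push [Fintype α] (f : Ω → α) (w : Ω → ℝ) (φ : α → ℝ) :
    ∑ a, push f w a * φ a = ∑ ω, w ω * φ (f ω) := by
  classical
  simp only [push, sum_mul]
  rw [Finset.sum_comm]
  refine sum_congr rfl fun ω _ => ?_
  simp only [ite_mul, zero_mul, sum_ite_eq, mem_univ, if_true]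

theorem sum_push_one [Fintype α] (f : Ω → α) (w : Ω → ℝ) : ∑ a, push f w a = ∑ ω, w ω := by
  simpa using sum_push f w fun _ => 1

theorem push_comp [Fintype α] (f : Ω → α) (G : α → β) (w : Ω → ℝ) :
    push (fun ω => G (f ω)) w = push G (push f w) := by
  classical
  funext b
  have h := sum_push f w fun a => if G a = b then 1 else 0
  simp only [mul_ite, mul_one, mul_zero] at h
  exact h.symm

theorem push_l1 [Fintype β] (G : Ω → β) (Q R : Ω → ℝ) :
    ∑ b, |push G Q b - push G R b| ≤ ∑ a, |Q a - R a| := by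
  classical
  rw [← sum_push_one G]
  refine sum_le_sum fun b _ => ?_
  simp only [push, ← sum_sub_distrib]
  refine (abs_sum_le_sum_abs _ _).trans (le_of_eq (sum_congr rfl fun a _ => ?_))
  split_ifs <;> simp

theorem ent_mono (hw : ∀ ω, 0 ≤ w ω) {f : Ω → α} {g : Ω → β}
    (h : ∀ ω ω', g ω = g ω' → f ω = f ω') : ent w f ≤ ent w g := by
  classical
  refine neg_le_neg (sum_le_sum fun ω _ => ?_)
  rcases (hw ω).eq_or_lt with h0 | h0
  · rw [← h0, zero_mul, zero_mul]
  refine mul_le_mul_of_nonneg_left (Real.log_le_log (h0.trans_le (le_push hw g ω)) ?_) (hw ω)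
  refine sum_le_sum fun ω' _ => ?_
  by_cases h1 : g ω' = g ω
  · rw [if_pos h1, if_pos (h _ _ h1)]
  · rw [if_neg h1]
    split_ifs
    · exact hw ω'
    · exact le_rfl

theorem ent_congr (hw : ∀ ω, 0 ≤ w ω) {f : Ω → α} {g : Ω → β}
    (h : ∀ ω ω', f ω = f ω' ↔ g ω = g ω') : ent w f = ent w g :=
  le_antisymm (ent_mono hw fun ω ω' => (h ω ω').2) (ent_mono hw fun ω ω' => (h ω ω').1)

theorem cmi_eq [Fintype α] [Fintype β] [Fintype γ] (hw : ∀ ω, 0 ≤ w ω) (f : Ω → α) (g : Ω → β)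
    (h : Ω → γ) : cmi w f g h = condInfo (push (fun ω => ((f ω, g ω), h ω)) w) := by
  classical
  have m1 : ∀ t, ∑ u, push (fun ω => ((f ω, g ω), h ω)) w (u, t) = push h w t := fun t => by
    simp only [push]
    rw [Finset.sum_comm]
    refine sum_congr rfl fun ω _ => ?_
    simp only [Prod.mk.injEq, ite_and, sum_ite_eq, mem_univ, if_true]
  have m2 : ∀ x t, ∑ y, push (fun ω => ((f ω, g ω), h ω)) w ((x, y), t) =
      push (fun ω => (f ω, h ω)) w (x, t) := fun x t => by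
    simp only [push]
    rw [Finset.sum_comm]
    refine sum_congr rfl fun ω _ => ?_
    by_cases h1 : f ω = x <;> simp [h1, ite_and]
  have m3 : ∀ y t, ∑ x, push (fun ω => ((f ω, g ω), h ω)) w ((x, y), t) =
      push (fun ω => (g ω, h ω)) w (y, t) := fun y t => by
    simp only [push]
    rw [Finset.sum_comm]
    refine sum_congr rfl fun ω _ => ?_
    simp only [Prod.mk.injEq, and_assoc, ite_and, sum_ite_eq, mem_univ, if_true]
  rw [condInfo, sum_push]
  simp only [m1, m2, m3, cmi, ent]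
  rw [← sub_eq_zero]
  simp only [sub_neg_eq_add, ← sum_neg_distrib, ← sum_add_distrib, ← sum_sub_distrib]
  refine sum_eq_zero fun ω _ => ?_
  rcases (hw ω).eq_or_lt with h0 | h0
  · rw [← h0]
    simp
  have p1 := (h0.trans_le (le_push hw (fun ω => ((f ω, g ω), h ω)) ω)).ne'
  have p2 := (h0.trans_le (le_push hw h ω)).ne'
  have p3 := (h0.trans_le (le_push hw (fun ω => (f ω, h ω)) ω)).ne'
  have p4 := (h0.trans_le (le_push hw (fun ω => (g ω, h ω)) ω)).ne'
  rw [Real.log_div (mul_ne_zero p1 p2) (mul_ne_zero p3 p4), Real.log_mul p1 p2, Real.log_mul p3 p4]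
  ring

/-- A weak form of Pinsker's inequality. -/
theorem l1_sq_le {P q : Ω → ℝ} (hP : ∀ i, 0 ≤ P i) (hq : ∀ i, 0 ≤ q i) (hP1 : ∑ i, P i = 1)
    (hq1 : ∑ i, q i ≤ 1) (hpos : ∀ i, 0 < P i → 0 < q i) :
    (∑ i, |P i - q i|) ^ 2 ≤ 4 * ∑ i, P i * Real.log (P i / q i) := by
  have h1 : ∀ i, 2 * (P i - √(P i) * √(q i)) ≤ P i * Real.log (P i / q i) := fun i => by
    rcases (hP i).eq_or_lt with h0 | h0
    · rw [← h0]
      simp
    have ha := Real.sqrt_pos.mpr h0
    have hb := Real.sqrt_pos.mpr (hpos i h0)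
    have e1 := Real.mul_self_sqrt (hP i)
    have e2 := Real.mul_self_sqrt (hq i)
    have e3 : P i / q i = ((√(q i) / √(P i)) ^ 2)⁻¹ := by
      rw [div_pow, inv_div, sq, sq, e1, e2]
    have e4 := Real.log_le_sub_one_of_pos (div_pos hb ha)
    rw [e3, Real.log_inv, Real.log_pow]
    have e5 : P i * (√(q i) / √(P i)) = √(P i) * √(q i) := by
      nth_rewrite 1 [← e1]
      field_simp
    have e6 := mul_le_mul_of_nonneg_left e4 (hP i)
    push_cast
    nlinarith
  have h2 : ∑ i, (√(P i) - √(q i)) ^ 2 ≤ ∑ i, P i * Real.log (P i / q i) := by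
    refine le_trans ?_ (sum_le_sum fun i _ => h1 i)
    have : ∀ i, (√(P i) - √(q i)) ^ 2 = 2 * (P i - √(P i) * √(q i)) + (q i - P i) := fun i => by
      have e1 := Real.mul_self_sqrt (hP i)
      have e2 := Real.mul_self_sqrt (hq i)
      nlinarith
    simp only [this, sum_add_distrib, sum_sub_distrib]
    linarith
  have h3 : ∑ i, (√(P i) + √(q i)) ^ 2 ≤ 4 := by
    have : ∀ i, (√(P i) + √(q i)) ^ 2 ≤ 2 * P i + 2 * q i := fun i => by
      have e1 := Real.mul_self_sqrt (hP i)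
      have e2 := Real.mul_self_sqrt (hq i)
      nlinarith [sq_nonneg (√(P i) - √(q i))]
    refine (sum_le_sum fun i _ => this i).trans ?_
    simp only [sum_add_distrib, ← mul_sum]
    linarith
  have h4 := sum_mul_sq_le_sq_mul_sq univ (fun i => |√(P i) - √(q i)|) fun i => √(P i) + √(q i)
  have h5 : ∀ i, |√(P i) - √(q i)| * (√(P i) + √(q i)) = |P i - q i| := fun i => by
    rw [← abs_of_nonneg (add_nonneg (Real.sqrt_nonneg (P i)) (Real.sqrt_nonneg (q i))), ← abs_mul]
    congr 1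
    have e1 := Real.mul_self_sqrt (hP i)
    have e2 := Real.mul_self_sqrt (hq i)
    nlinarith
  simp only [h5, sq_abs] at h4
  have h6 : 0 ≤ ∑ i, (√(P i) - √(q i)) ^ 2 := sum_nonneg fun i _ => sq_nonneg _
  nlinarith

theorem condInfo_ge [Fintype α] [Fintype β] [Fintype γ] {Q : (α × β) × γ → ℝ}
    (hQ : ∀ p, 0 ≤ Q p) (hQ1 : ∑ p, Q p = 1) :
    (∑ p : (α × β) × γ, |Q p - (∑ y, Q ((p.1.1, y), p.2)) / (∑ u, Q (u, p.2)) *
      ∑ x, Q ((x, p.1.2), p.2)|) ^ 2 ≤ 4 * condInfo Q := by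
  have h := l1_sq_le (q := fun p : (α × β) × γ => (∑ y, Q ((p.1.1, y), p.2)) /
    (∑ u, Q (u, p.2)) * ∑ x, Q ((x, p.1.2), p.2)) hQ
    (fun p => mul_nonneg (div_nonneg (sum_nonneg fun _ _ => hQ _) (sum_nonneg fun _ _ => hQ _))
      (sum_nonneg fun _ _ => hQ _)) hQ1 ?_ ?_
  · refine h.trans (le_of_eq ?_)
    simp only [condInfo, div_mul_eq_mul_div, div_div_eq_mul_div]
  · rw [← hQ1, Fintype.sum_prod_type_right, Fintype.sum_prod_type_right]
    refine sum_le_sum fun t _ => le_of_eq ?_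
    rw [Fintype.sum_prod_type]
    simp only [← mul_sum, ← sum_mul, ← sum_div]
    rw [← Fintype.sum_prod_type' (fun x y => Q ((x, y), t)),
      ← Fintype.sum_prod_type_right' (fun x y => Q ((x, y), t))]
    by_cases h0 : ∑ u : α × β, Q (u, t) = 0
    · simp [h0]
    · rw [div_self h0, one_mul]
  · intro p hp
    have a1 : 0 < ∑ y, Q ((p.1.1, y), p.2) := hp.trans_le
      (single_le_sum (f := fun y => Q ((p.1.1, y), p.2)) (fun _ _ => hQ _) (mem_univ p.1.2))
    have a2 : 0 < ∑ u, Q (u, p.2) := hp.trans_le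
      (single_le_sum (f := fun u => Q (u, p.2)) (fun _ _ => hQ _) (mem_univ p.1))
    have a3 : 0 < ∑ x, Q ((x, p.1.2), p.2) := hp.trans_le
      (single_le_sum (f := fun x => Q ((x, p.1.2), p.2)) (fun _ _ => hQ _) (mem_univ p.1.1))
    positivity

theorem cmi_nonneg [Fintype α] [Fintype β] [Fintype γ] (hw : ∀ ω, 0 ≤ w ω) (hw1 : ∑ ω, w ω = 1)
    (f : Ω → α) (g : Ω → β) (h : Ω → γ) : 0 ≤ cmi w f g h := by
  have h1 := condInfo_ge (push_nonneg hw fun ω => ((f ω, g ω), h ω))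
    ((sum_push_one _ _).trans hw1)
  rw [cmi_eq hw]
  nlinarith [sq_nonneg (∑ p : (α × β) × γ, |push (fun ω => ((f ω, g ω), h ω)) w p -
    (∑ y, push (fun ω => ((f ω, g ω), h ω)) w ((p.1.1, y), p.2)) /
      (∑ u, push (fun ω => ((f ω, g ω), h ω)) w (u, p.2)) *
      ∑ x, push (fun ω => ((f ω, g ω), h ω)) w ((x, p.1.2), p.2)|)]

theorem chain {α' β' : Type} [Fintype α] [Fintype β] [Fintype γ] [Fintype α'] [Fintype β']
    (hw : ∀ ω, 0 ≤ w ω) (hw1 : ∑ ω, w ω = 1) (a : Ω → α) (a' : Ω → α') (b : Ω → β) (b' : Ω → β')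
    (h : Ω → γ) :
    cmi w a b (fun ω => (h ω, b' ω)) + cmi w a' b' (fun ω => (h ω, a ω)) ≤
      cmi w (fun ω => (a ω, a' ω)) (fun ω => (b ω, b' ω)) h := by
  have n1 := cmi_nonneg hw hw1 a b' h
  have n2 := cmi_nonneg hw hw1 a' b fun ω => ((a ω, b' ω), h ω)
  have e1 : ent w (fun ω => (a ω, h ω, b' ω)) = ent w fun ω => ((a ω, b' ω), h ω) :=
    ent_congr hw fun ω ω' => by simp only [Prod.mk.injEq]; tauto
  have e2 : ent w (fun ω => (b ω, h ω, b' ω)) = ent w fun ω => ((b ω, b' ω), h ω) :=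
    ent_congr hw fun ω ω' => by simp only [Prod.mk.injEq]; tauto
  have e3 : ent w (fun ω => ((a ω, b ω), h ω, b' ω)) = ent w fun ω => (b ω, (a ω, b' ω), h ω) :=
    ent_congr hw fun ω ω' => by simp only [Prod.mk.injEq]; tauto
  have e4 : ent w (fun ω => (h ω, b' ω)) = ent w fun ω => (b' ω, h ω) :=
    ent_congr hw fun ω ω' => by simp only [Prod.mk.injEq]; tauto
  have e5 : ent w (fun ω => (a' ω, h ω, a ω)) = ent w fun ω => ((a ω, a' ω), h ω) :=
    ent_congr hw fun ω ω' => by simp only [Prod.mk.injEq]; tauto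
  have e6 : ent w (fun ω => (b' ω, h ω, a ω)) = ent w fun ω => ((a ω, b' ω), h ω) :=
    ent_congr hw fun ω ω' => by simp only [Prod.mk.injEq]; tauto
  have e7 : ent w (fun ω => ((a' ω, b' ω), h ω, a ω)) =
      ent w fun ω => (a' ω, (a ω, b' ω), h ω) :=
    ent_congr hw fun ω ω' => by simp only [Prod.mk.injEq]; tauto
  have e8 : ent w (fun ω => (h ω, a ω)) = ent w fun ω => (a ω, h ω) :=
    ent_congr hw fun ω ω' => by simp only [Prod.mk.injEq]; tauto
  have e9 : ent w (fun ω => ((a' ω, b ω), (a ω, b' ω), h ω)) =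
      ent w fun ω => (((a ω, a' ω), b ω, b' ω), h ω) :=
    ent_congr hw fun ω ω' => by simp only [Prod.mk.injEq]; tauto
  simp only [cmi] at n1 n2 ⊢
  linarith

theorem ent_pair_le [Fintype γ] [Fintype σ] [Nonempty σ] (hw : ∀ ω, 0 ≤ w ω)
    (hw1 : ∑ ω, w ω = 1) (s : Ω → σ) (h : Ω → γ) :
    ent w (fun ω => (s ω, h ω)) ≤ ent w h + Real.log (Fintype.card σ) := by
  have hN : (0 : ℝ) < Fintype.card σ := by exact_mod_cast Fintype.card_pos
  have h1 : ∀ ω, w ω * Real.log (push h w (h ω)) -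
      w ω * Real.log (push (fun ω => (s ω, h ω)) w (s ω, h ω)) -
      w ω * Real.log (Fintype.card σ) ≤ w ω * (push h w (h ω) /
        (push (fun ω => (s ω, h ω)) w (s ω, h ω) * Fintype.card σ)) - w ω := fun ω => by
    rcases (hw ω).eq_or_lt with h0 | h0
    · rw [← h0]
      simp
    have p1 := h0.trans_le (le_push hw (fun ω => (s ω, h ω)) ω)
    have p2 := h0.trans_le (le_push hw h ω)
    have e := Real.log_le_sub_one_of_pos (div_pos p2 (mul_pos p1 hN))
    rw [Real.log_div p2.ne' (mul_pos p1 hN).ne', Real.log_mul p1.ne' hN.ne'] at e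
    nlinarith [mul_le_mul_of_nonneg_left e (hw ω)]
  have h2 := sum_le_sum fun ω (_ : ω ∈ univ) => h1 ω
  have h3 := sum_push (fun ω => (s ω, h ω)) w fun p =>
    push h w p.2 / (push (fun ω => (s ω, h ω)) w p * Fintype.card σ)
  have h4 : ∑ p : σ × γ, push (fun ω => (s ω, h ω)) w p *
      (push h w p.2 / (push (fun ω => (s ω, h ω)) w p * Fintype.card σ)) ≤
      ∑ p : σ × γ, push h w p.2 / Fintype.card σ := by
    refine sum_le_sum fun p _ => ?_
    by_cases h0 : push (fun ω => (s ω, h ω)) w p = 0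
    · rw [h0, zero_mul]
      exact div_nonneg (push_nonneg hw _ _) hN.le
    · exact le_of_eq (by field_simp)
  have h5 : ∑ p : σ × γ, push h w p.2 / Fintype.card σ = 1 := by
    rw [Fintype.sum_prod_type]
    simp only [← sum_div, sum_push_one, hw1, sum_const, card_univ, nsmul_eq_mul, mul_one]
    exact div_self hN.ne'
  simp only [sum_sub_distrib, ← sum_mul, hw1] at h2
  simp only [ent]
  linarith

theorem cmi_le_log [Fintype α] [Fintype β] [Fintype γ] [Fintype σ] [Nonempty σ]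
    (hw : ∀ ω, 0 ≤ w ω) (hw1 : ∑ ω, w ω = 1) (a : Ω → α) (b : Ω → β) (h : Ω → γ) (s : Ω → σ) :
    cmi w a b h ≤ cmi w a b (fun ω => (h ω, s ω)) + Real.log (Fintype.card σ) := by
  have n1 := cmi_nonneg hw hw1 a s fun ω => (b ω, h ω)
  have n2 := ent_pair_le hw hw1 s h
  have n3 : ent w (fun ω => (a ω, h ω)) ≤ ent w fun ω => (a ω, h ω, s ω) :=
    ent_mono hw fun ω ω' => by simp only [Prod.mk.injEq]; tauto
  have e1 : ent w (fun ω => (a ω, b ω, h ω)) = ent w fun ω => ((a ω, b ω), h ω) :=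
    ent_congr hw fun ω ω' => by simp only [Prod.mk.injEq]; tauto
  have e2 : ent w (fun ω => (s ω, b ω, h ω)) = ent w fun ω => (b ω, h ω, s ω) :=
    ent_congr hw fun ω ω' => by simp only [Prod.mk.injEq]; tauto
  have e3 : ent w (fun ω => ((a ω, s ω), b ω, h ω)) = ent w fun ω => ((a ω, b ω), h ω, s ω) :=
    ent_congr hw fun ω ω' => by simp only [Prod.mk.injEq]; tauto
  have e4 : ent w (fun ω => (s ω, h ω)) = ent w fun ω => (h ω, s ω) :=
    ent_congr hw fun ω ω' => by simp only [Prod.mk.injEq]; tauto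
  simp only [cmi] at n1 ⊢
  linarith

end Vale.Agent.N372B
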