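import Vale.Agent.N372B.Ent

/-! Sources which no channel of Eve makes nearly independent; the explicit source. -/

open Finset

set_option linter.unusedSectionVars false

namespace Vale.Agent.N372B

variable {Ω X Y Z T S : Type} [Fintype X] [Fintype Y] [Fintype Z]

/-- No channel of Eve brings the law closer than `κ` to a conditionally independent one. -/
def Far (P : (X × Y) × Z → ℝ) (κ : ℝ) : Prop :=
  ∀ (T : Type) [Fintype T] (W : Z → T → ℝ), IsChannel W → ∀ (u : T → X → ℝ) (v : T → Y → ℝ),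
    (∀ t x, 0 ≤ u t x) → (∀ t y, 0 ≤ v t y) →
      κ ≤ ∑ p : (X × Y) × T, |degrade P W p - u p.2 p.1.1 * v p.2 p.1.2|

theorem Far.single {P : (X × Y) × Z → ℝ} {κ δ : ℝ} (h : Far P κ) [Fintype T] {W : Z → T → ℝ}
    (hW : IsChannel W) {Q : (X × Y) × T → ℝ} (hQ : ∀ p, 0 ≤ Q p) (hQ1 : ∑ p, Q p = 1)
    (hδ : ∑ p, |Q p - degrade P W p| ≤ δ) (hκ : δ ≤ κ) : (κ - δ) ^ 2 / 4 ≤ condInfo Q := by
  have h1 := condInfo_ge hQ hQ1
  have h2 := h T W hW (fun t x => (∑ y, Q ((x, y), t)) / ∑ u, Q (u, t))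
    (fun t y => ∑ x, Q ((x, y), t))
    (fun t x => div_nonneg (sum_nonneg fun _ _ => hQ _) (sum_nonneg fun _ _ => hQ _))
    fun t y => sum_nonneg fun _ _ => hQ _
  have h3 := sum_le_sum fun (p : (X × Y) × T) (_ : p ∈ univ) => abs_sub_le (degrade P W p) (Q p)
    ((∑ y, Q ((p.1.1, y), p.2)) / (∑ u, Q (u, p.2)) * ∑ x, Q ((x, p.1.2), p.2))
  simp only [sum_add_distrib, abs_sub_comm (degrade P W _) (Q _)] at h3
  have h4 := pow_le_pow_left₀ (sub_nonneg.mpr hκ) (by linarith : κ - δ ≤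
    ∑ p : (X × Y) × T, |Q p - (∑ y, Q ((p.1.1, y), p.2)) / (∑ u, Q (u, p.2)) *
      ∑ x, Q ((x, p.1.2), p.2)|) 2
  linarith

theorem iid_nonneg {P : (X × Y) × Z → ℝ} (hP : ∀ p, 0 ≤ P p) (n : ℕ) (p) : 0 ≤ iid n P p :=
  prod_nonneg fun _ _ => hP _

theorem iid_cons (P : (X × Y) × Z → ℝ) {n : ℕ} (x : X) (y : Y) (z : Z) (a : Fin n → X)
    (b : Fin n → Y) (c : Fin n → Z) :
    iid (n + 1) P ((Fin.cons x a, Fin.cons y b), Fin.cons z c) =
      P ((x, y), z) * iid n P ((a, b), c) := by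
  simp only [iid, Fin.prod_univ_succ, Fin.cons_zero, Fin.cons_succ]

theorem iid_sum {P : (X × Y) × Z → ℝ} (hP1 : ∑ p, P p = 1) (n : ℕ) : ∑ p, iid n P p = 1 := by
  induction n with
  | zero => simp [iid]
  | succ n ih =>
    simp only [Fintype.sum_prod_type] at hP1 ih ⊢
    simp only [sum_cons, iid_cons, ← mul_sum, ← sum_mul]
    rw [hP1, ih, mul_one]

theorem Far.many [Fintype Ω] {P : (X × Y) × Z → ℝ} {κ δ : ℝ} (h : Far P κ) (hP : ∀ p, 0 ≤ P p)
    (hP1 : ∑ p, P p = 1) (hκ : δ ≤ κ) {w : Ω → ℝ} (hw : ∀ ω, 0 ≤ w ω) (hw1 : ∑ ω, w ω = 1)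
    (n : ℕ) : ∀ (T : Type) [Fintype T] (A : Ω → Fin n → X) (B : Ω → Fin n → Y) (c : Ω → T)
      (W : (Fin n → Z) → T → ℝ), IsChannel W →
      ∑ p, |push (fun ω => ((A ω, B ω), c ω)) w p - degrade (iid n P) W p| ≤ δ →
      n * ((κ - δ) ^ 2 / 4) ≤ cmi w A B c := by
  classical
  induction n with
  | zero =>
    intro T _ A B c W _ _
    simpa using cmi_nonneg hw hw1 A B c
  | succ n ih =>
    intro T _ A B c W hW hδ
    have h0 := chain hw hw1 (fun ω => A ω 0) (fun ω => Fin.tail (A ω)) (fun ω => B ω 0)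
      (fun ω => Fin.tail (B ω)) c
    have hc : ∀ {V : Type} (x y : Fin (n + 1) → V),
        (x 0 = y 0 ∧ Fin.tail x = Fin.tail y) ↔ x = y := fun x y =>
      ⟨fun h => by rw [← Fin.cons_self_tail x, ← Fin.cons_self_tail y, h.1, h.2],
        fun h => by rw [h]; exact ⟨rfl, rfl⟩⟩
    have e0 : cmi w (fun ω => (A ω 0, Fin.tail (A ω))) (fun ω => (B ω 0, Fin.tail (B ω))) c =
        cmi w A B c := by
      have e1 : ent w (fun ω => ((A ω 0, Fin.tail (A ω)), c ω)) = ent w fun ω => (A ω, c ω) :=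
        ent_congr hw fun ω ω' => by simp only [Prod.mk.injEq, hc]
      have e2 : ent w (fun ω => ((B ω 0, Fin.tail (B ω)), c ω)) = ent w fun ω => (B ω, c ω) :=
        ent_congr hw fun ω ω' => by simp only [Prod.mk.injEq, hc]
      have e3 : ent w (fun ω => (((A ω 0, Fin.tail (A ω)), (B ω 0, Fin.tail (B ω))), c ω)) =
          ent w fun ω => ((A ω, B ω), c ω) :=
        ent_congr hw fun ω ω' => by simp only [Prod.mk.injEq, hc]
      simp only [cmi, e1, e2, e3]
    -- the first coordinate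
    have h1 : (κ - δ) ^ 2 / 4 ≤
        cmi w (fun ω => A ω 0) (fun ω => B ω 0) fun ω => (c ω, Fin.tail (B ω)) := by
      let G : ((Fin (n + 1) → X) × (Fin (n + 1) → Y)) × T → (X × Y) × (T × (Fin n → Y)) :=
        fun p => ((p.1.1 0, p.1.2 0), (p.2, Fin.tail p.1.2))
      let W1 : Z → T × (Fin n → Y) → ℝ := fun z q =>
        ∑ a : Fin n → X, ∑ z' : Fin n → Z, iid n P ((a, q.2), z') * W (Fin.cons z z') q.1
      have hW1 : IsChannel W1 := by
        refine ⟨fun z q => sum_nonneg fun a _ => sum_nonneg fun z' _ =>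
          mul_nonneg (iid_nonneg hP n _) (hW.1 _ _), fun z => ?_⟩
        rw [← iid_sum hP1 n, Fintype.sum_prod_type_right, Fintype.sum_prod_type,
          Fintype.sum_prod_type_right]
        refine sum_congr rfl fun b _ => ?_
        simp only [W1]
        rw [Finset.sum_comm]
        refine sum_congr rfl fun a _ => ?_
        rw [Finset.sum_comm]
        simp only [← mul_sum, hW.2, mul_one]
      have hG : push G (degrade (iid (n + 1) P) W) = degrade P W1 := by
        funext ⟨⟨x, y⟩, t, b⟩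
        simp only [push, G, Fintype.sum_prod_type, sum_cons (U := X), sum_cons (U := Y),
          Fin.cons_zero, Fin.tail_cons, Prod.mk.injEq, and_assoc, ite_and, sum_ite_eq',
          mem_univ, if_true, sum_ite_irrel, sum_const_zero]
        simp only [degrade, W1, sum_cons (U := Z), iid_cons, mul_sum, mul_assoc]
        rw [Finset.sum_comm]
      rw [cmi_eq hw]
      refine h.single hW1 (push_nonneg hw _) ((sum_push_one _ _).trans hw1) ?_ hκ
      rw [← hG]
      refine le_trans (le_of_eq ?_) ((push_l1 G _ _).trans hδ)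
      rw [← push_comp]
    -- the other coordinates
    have h2 : n * ((κ - δ) ^ 2 / 4) ≤
        cmi w (fun ω => Fin.tail (A ω)) (fun ω => Fin.tail (B ω)) fun ω => (c ω, A ω 0) := by
      let G : ((Fin (n + 1) → X) × (Fin (n + 1) → Y)) × T →
          ((Fin n → X) × (Fin n → Y)) × (T × X) :=
        fun p => ((Fin.tail p.1.1, Fin.tail p.1.2), (p.2, p.1.1 0))
      let W2 : (Fin n → Z) → T × X → ℝ := fun z' q =>
        ∑ y, ∑ z, P ((q.2, y), z) * W (Fin.cons z z') q.1
      have hW2 : IsChannel W2 := by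
        refine ⟨fun z q => sum_nonneg fun a _ => sum_nonneg fun z' _ =>
          mul_nonneg (hP _) (hW.1 _ _), fun z' => ?_⟩
        rw [← hP1, Fintype.sum_prod_type_right, Fintype.sum_prod_type, Fintype.sum_prod_type]
        refine sum_congr rfl fun x _ => ?_
        simp only [W2]
        rw [Finset.sum_comm]
        refine sum_congr rfl fun a _ => ?_
        rw [Finset.sum_comm]
        simp only [← mul_sum, hW.2, mul_one]
      have hG : push G (degrade (iid (n + 1) P) W) = degrade (iid n P) W2 := by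
        funext ⟨⟨a, b⟩, t, x⟩
        have e : ∀ (x' : X) (a' : Fin n → X) (b' : Fin n → Y) (t' : T),
            ((a' = a ∧ b' = b) ∧ t' = t ∧ x' = x) ↔ (x' = x ∧ a' = a ∧ b' = b ∧ t' = t) := by
          tauto
        simp only [push, G, Fintype.sum_prod_type, sum_cons (U := X), sum_cons (U := Y),
          Fin.cons_zero, Fin.tail_cons, Prod.mk.injEq, e, ite_and, sum_ite_eq',
          mem_univ, if_true, sum_ite_irrel, sum_const_zero]
        simp only [degrade, W2, sum_cons (U := Z), iid_cons, mul_sum]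
        rw [Finset.sum_comm (γ := Fin n → Z)]
        refine sum_congr rfl fun y _ => ?_
        rw [Finset.sum_comm]
        exact sum_congr rfl fun z _ => sum_congr rfl fun z' _ => by ring
      refine ih (T × X) _ _ _ W2 hW2 ?_
      rw [← hG]
      refine le_trans (le_of_eq ?_) ((push_l1 G _ _).trans hδ)
      rw [← push_comp]
    push_cast
    linarith

/-- A mixture of `N` conditionally independent laws close to `n` copies: `n c ≤ log N`. -/
theorem Far.cost {P : (X × Y) × Z → ℝ} {κ δ : ℝ} (h : Far P κ) (hP : ∀ p, 0 ≤ P p)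
    (hP1 : ∑ p, P p = 1) (hκ : δ ≤ κ) [Fintype T] [Fintype S] [Nonempty S] {n : ℕ}
    (u : T × S → (Fin n → X) → ℝ) (v : T × S → (Fin n → Y) → ℝ) (hu : ∀ t x, 0 ≤ u t x)
    (hv : ∀ t y, 0 ≤ v t y)
    (h1 : ∑ p : ((Fin n → X) × (Fin n → Y)) × T, ∑ s, u (p.2, s) p.1.1 * v (p.2, s) p.1.2 = 1)
    {W : (Fin n → Z) → T → ℝ} (hW : IsChannel W)
    (hδ : ∑ p : ((Fin n → X) × (Fin n → Y)) × T,
      |∑ s, u (p.2, s) p.1.1 * v (p.2, s) p.1.2 - degrade (iid n P) W p| ≤ δ) :
    n * ((κ - δ) ^ 2 / 4) ≤ Real.log (Fintype.card S) := by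
  classical
  let w : ((Fin n → X) × (Fin n → Y)) × (T × S) → ℝ := fun ω => u ω.2 ω.1.1 * v ω.2 ω.1.2
  have hw : ∀ ω, 0 ≤ w ω := fun ω => mul_nonneg (hu _ _) (hv _ _)
  have hw1 : ∑ ω, w ω = 1 := by
    rw [← h1]
    simp only [w, Fintype.sum_prod_type]
  have h2 := h.many hP hP1 hκ hw hw1 n T (fun ω => ω.1.1) (fun ω => ω.1.2) (fun ω => ω.2.1) W hW
    (le_trans (le_of_eq (sum_congr rfl fun ⟨⟨a, b⟩, t⟩ _ => by
      simp only [push, w, Fintype.sum_prod_type, Prod.mk.injEq, and_assoc, ite_and, sum_ite_eq',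
        mem_univ, if_true, sum_ite_irrel, sum_const_zero])) hδ)
  have h3 := cmi_le_log hw hw1 (fun ω => ω.1.1) (fun ω => ω.1.2) (fun ω => ω.2.1) fun ω => ω.2.2
  have h4 : cmi w (fun ω => ω.1.1) (fun ω => ω.1.2) (fun ω => (ω.2.1, ω.2.2)) = 0 := by
    have e : push (fun ω : ((Fin n → X) × (Fin n → Y)) × (T × S) =>
        ((ω.1.1, ω.1.2), (ω.2.1, ω.2.2))) w = w := by
      funext p
      simp only [push, Prod.mk.eta, sum_ite_eq', mem_univ, if_true]
    rw [cmi_eq hw, e]
    refine sum_eq_zero fun p _ => ?_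
    have e2 : w p * ∑ q, w (q, p.2) =
        (∑ y, w ((p.1.1, y), p.2)) * ∑ x, w ((x, p.1.2), p.2) := by
      simp only [w, Fintype.sum_prod_type, ← mul_sum, ← sum_mul]
      ring
    rw [e2]
    by_cases h0 : (∑ y, w ((p.1.1, y), p.2)) * ∑ x, w ((x, p.1.2), p.2) = 0
    · rw [h0, div_zero, Real.log_zero, mul_zero]
    · rw [div_self h0, Real.log_one, mul_zero]
  linarith

end Vale.Agent.N372B
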