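import Vale.Agent.N372B.Bridge

/-! The rates: key, intrinsic information, formation. The main theorem. -/

open Matrix Kronecker Finset Filter Topology
open scoped ComplexOrder MatrixOrder

set_option linter.unusedSectionVars false

namespace Vale.Agent.N372B

open Vale.Agent.P372 hiding Protocol
open Vale.Agent.P372W

variable {A B E K J T X Z : Type}

theorem keyRate_ketBra [Fintype E] [DecidableEq E] (ψ : (A × B) × E → ℂ) :
    keyRate (ketBra ψ) = secretKey ψ := by
  have h : ∀ n, power n (ketBra ψ) = ketBra (tensorPow n ψ) := fun n => by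
    ext p q
    simp only [power, ketBra, of_apply, vecMulVec_apply, tensorPow, Pi.star_apply, star_prod,
      prod_mul_distrib]
  simp only [keyRate, secretKey, h]

variable [Fintype A] [DecidableEq A] [Fintype B] [DecidableEq B] [Fintype E] [DecidableEq E]

theorem keyRate_eq_zero {ω : Matrix ((A × B) × E) ((A × B) × E) ℂ}
    (hω : ∀ n, IsState (power n ω)) {c : ℝ} (hc : 0 < c)
    (h : ∀ (n ℓ : ℕ) (π : Protocol (Fin ℓ → Bool) (Fin n → A) (Fin n → B)) (ε : ℝ), 1 ≤ ℓ →
      HasError π (power n ω) ε → c ≤ ε) : keyRate ω = 0 := by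
  refine le_antisymm (sSup_le ?_) (le_sSup ?_)
  · rintro r ⟨ℓ, ε, π, h1, h2, rfl⟩
    refine liminf_le_of_frequently_le (Eventually.frequently ?_)
    filter_upwards [h2.eventually (gt_mem_nhds hc)] with n hn
    have : ℓ n = 0 := by
      by_contra h0
      exact absurd (h n _ (π n) _ (Nat.one_le_iff_ne_zero.2 h0) (h1 n)) (not_le.2 hn)
    simp [this]
  · have h0 : ∀ n, ∃ π : Protocol (Fin 0 → Bool) (Fin n → A) (Fin n → B),
        HasError π (power n ω) 0 := fun n => by
      obtain ⟨π, -, -⟩ := exists_protocol (LOCC.output (K := Fin 0 → Bool)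
        (fun _ => (1 : Matrix (Fin n → A) (Fin n → A) ℂ))
        (fun _ => (1 : Matrix (Fin n → B) (Fin n → B) ℂ)) (fun _ => PosSemidef.one) (by simp)
        (fun _ => PosSemidef.one) (by simp))
      obtain ⟨h1, h2⟩ := isState_finalState π _ (hω n)
      refine ⟨π, (π.finalState (power n ω)).submatrix (fun e => (default, e))
        fun e => (default, e), ⟨h1.submatrix _, ?_⟩, le_of_eq ?_⟩
      · rw [← h2, Matrix.trace, Matrix.trace, eq_comm, Fintype.sum_prod_type,
          Fintype.sum_subsingleton _ default]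
        rfl
      · rw [trNorm_eq]
        refine Eq.trans (congrArg _ ?_) traceNorm_zero
        ext ⟨k, e⟩ ⟨l, e'⟩
        obtain rfl := Subsingleton.elim k default
        obtain rfl := Subsingleton.elim l default
        simp [idealKey_apply, eq_iff_true_of_subsingleton]
    choose π hπ using h0
    exact ⟨fun _ => 0, fun _ => 0, π, hπ, tendsto_const_nhds, by simp⟩

theorem degrade_law [Fintype T] {P : (A × B) × E → ℝ} (hP : ∀ p, 0 ≤ P p) (hP1 : ∑ p, P p = 1)
    {W : E → T → ℝ} (hW : IsChannel W) :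
    (∀ p, 0 ≤ degrade P W p) ∧ ∑ p, degrade P W p = 1 := by
  refine ⟨fun p => sum_nonneg fun z _ => mul_nonneg (hP _) (hW.1 _ _), ?_⟩
  rw [← hP1, Fintype.sum_prod_type, Fintype.sum_prod_type (f := P)]
  refine sum_congr rfl fun u _ => ?_
  simp only [degrade]
  rw [Finset.sum_comm]
  simp only [← mul_sum, hW.2, mul_one]

theorem Far.intrinsic_pos {P : (A × B) × E → ℝ} {κ : ℝ} (h : Far P κ) (hκ : 0 < κ)
    (hP : ∀ p, 0 ≤ P p) (hP1 : ∑ p, P p = 1) : 0 < intrinsic P := by
  refine lt_of_lt_of_le (by positivity : 0 < (κ - 0) ^ 2 / 4) (le_csInf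
    ⟨_, 1, fun _ _ => 1, ⟨fun _ _ => zero_le_one, fun _ => by simp⟩, rfl⟩ ?_)
  rintro r ⟨m, W, hW, rfl⟩
  exact h.single hW (degrade_law hP hP1 hW).1 (degrade_law hP hP1 hW).2 (by simp) hκ.le

/-- The ideal key as a law. -/
noncomputable def keyLaw (ℓ : ℕ) : ((Fin ℓ → Bool) × (Fin ℓ → Bool)) × Unit → ℝ :=
  fun p => if p.1.1 = p.1.2 then (2 ^ ℓ)⁻¹ else 0

theorem idealKey_eq (ℓ : ℕ) :
    idealKey ℓ ⊗ₖ (1 : Matrix Unit Unit ℂ) = diagState (keyLaw ℓ) := by
  ext ⟨p, u⟩ ⟨q, v⟩
  simp only [kroneckerMap_apply, idealKey_apply, diagState, diagonal_apply, keyLaw]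
  by_cases h : p = q
  · subst h
    by_cases h' : p.1 = p.2 <;> simp [h']
  · simp [h]

theorem keyLaw_nonneg (ℓ : ℕ) (p) : 0 ≤ keyLaw ℓ p := by
  unfold keyLaw
  split_ifs
  · positivity
  · exact le_rfl

theorem keyLaw_sum (ℓ : ℕ) : ∑ p, keyLaw ℓ p = 1 := by
  simp [keyLaw, Fintype.sum_prod_type]

variable [Fintype X] [DecidableEq X] [Fintype Z] [DecidableEq Z]

theorem Far.forms {P : (X × X) × Z → ℝ} {κ δ : ℝ} (h : Far P κ) (hP : ∀ p, 0 ≤ P p)
    (hP1 : ∑ p, P p = 1) (hκ : δ ≤ κ) {n ℓ : ℕ} (hF : Forms P n ℓ δ) :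
    n * ((κ - δ) ^ 2 / 4) ≤ ℓ * Real.log 2 := by
  obtain ⟨π, W, hW, hδ⟩ := hF
  obtain ⟨α, β, hα, hβ, hw⟩ := exists_weights π
  rw [idealKey_eq] at hδ
  have h1 := trace_re (isState_finalState π _ (isState_diag (keyLaw_nonneg ℓ) (keyLaw_sum ℓ)))
  have h2 := (diag_le _).trans hδ
  have h3 : ∀ a b : (Fin ℓ → Bool) → ℝ, wt (fun u z => keyLaw ℓ (u, z)) a b () =
      ∑ s, ((2 : ℝ) ^ ℓ)⁻¹ * a s * b s := fun a b => by
    simp only [wt, keyLaw, Fintype.sum_prod_type, mul_ite, mul_zero, sum_ite_eq, mem_univ, if_true]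
    exact sum_congr rfl fun s _ => by ring
  simp only [Matrix.sub_apply, Complex.sub_re, hw] at h1 h2
  simp only [diagState, diagonal_apply_eq, Complex.ofReal_re] at h2
  have h4 := h.cost hP hP1 hκ (S := Fin ℓ → Bool) (fun q x => ((2 : ℝ) ^ ℓ)⁻¹ * α q.1 x q.2)
    (fun q y => β q.1 y q.2) (fun q x => mul_nonneg (by positivity) (hα _ _ _))
    (fun q y => hβ _ _ _) (by simpa only [Fintype.sum_prod_type, Fintype.sum_unique, h3] using h1)
    hW (by simpa only [Fintype.sum_prod_type, Fintype.sum_unique, h3] using h2)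
  simpa using h4

theorem Far.formRate_pos {P : (X × X) × Z → ℝ} {κ : ℝ} (h : Far P κ) (hκ : 0 < κ)
    (hP : ∀ p, 0 ≤ P p) (hP1 : ∑ p, P p = 1) : 0 < formRate P := by
  have hl := Real.log_pos one_lt_two
  have hc : (0 : ℝ) < (κ - κ / 2) ^ 2 / 4 / Real.log 2 := by
    have : 0 < κ - κ / 2 := by linarith
    positivity
  refine lt_of_lt_of_le (EReal.coe_pos.2 hc) (le_sInf ?_)
  rintro r ⟨ℓ, ε, h1, h2, rfl⟩
  refine le_limsup_of_frequently_le (Eventually.frequently ?_)
  filter_upwards [h2.eventually (gt_mem_nhds (half_pos hκ)), eventually_gt_atTop 0] with n hn h0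
  obtain ⟨π, W, hW, hδ⟩ := h1 n
  have h3 := h.forms hP hP1 (half_le_self hκ.le) ⟨π, W, hW, hδ.trans hn.le⟩
  rw [EReal.coe_le_coe_iff, div_le_div_iff₀ hl (by exact_mod_cast h0)]
  linarith

theorem kraus_law (c : A → B → ℝ) (hc : ∀ a b, 0 ≤ c a b) (D : Matrix A A ℂ) :
    ∑ r : A × B, (single r.1 r.2 (√(c r.1 r.2) : ℂ))ᴴ * D * single r.1 r.2 (√(c r.1 r.2) : ℂ) =
      diagonal fun b => ∑ a, (c a b : ℂ) * D a a := by
  ext i j
  simp only [conjTranspose_single, single_mul_mul_single, Matrix.sum_apply, single_apply,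
    Fintype.sum_prod_type_right, diagonal_apply, ite_and, sum_ite_irrel, sum_const_zero,
    sum_ite_eq', mem_univ, if_true]
  refine if_congr Iff.rfl (sum_congr rfl fun a _ => ?_) rfl
  rw [mul_right_comm, Complex.star_def, Complex.conj_ofReal, ← Complex.ofReal_mul,
    Real.mul_self_sqrt (hc _ _)]

/-- Formation by one message of Alice. -/
theorem forms_of {P : (X × X) × Z → ℝ} {n ℓ : ℕ} [Fintype T] [DecidableEq T]
    (c d : T → (Fin n → X) → (Fin ℓ → Bool) → ℝ) (hc : ∀ t x k, 0 ≤ c t x k)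
    (hc1 : ∀ k, ∑ t, ∑ x, c t x k = 1) (hd : ∀ t x k, 0 ≤ d t x k)
    (hd1 : ∀ t k, ∑ x, d t x k = 1) {W : (Fin n → Z) → T → ℝ} (hW : IsChannel W)
    (h : ∀ x y t, degrade (iid n P) W ((x, y), t) = ∑ k, c t x k * d t y k * (2 ^ ℓ)⁻¹) :
    Forms P n ℓ 0 := by
  have h1 : ∀ x : Fin n → X, (single x x 1 : Matrix _ _ ℂ).PosSemidef := fun x => by
    rw [← diagonal_single, posSemidef_diagonal_iff]
    intro i
    rw [Pi.single_apply]
    split_ifs <;> simp
  have h2 := LOCC.alice (K := Fin n → X) (Fin n → X) T ((Fin n → X) × (Fin ℓ → Bool))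
    (fun t r => single r.1 r.2 (√(c t r.1 r.2) : ℂ)) (by
      have := fun t => kraus_law (c t) (hc t) 1
      simp only [Matrix.mul_one, one_apply_eq, mul_one] at this
      simp only [this]
      ext i j
      simp only [Matrix.sum_apply, diagonal_apply, sum_ite_irrel, sum_const_zero, one_apply]
      exact if_congr Iff.rfl (by exact_mod_cast hc1 i) rfl)
    (fun _ => Unit) _ _ fun t => LOCC.output (fun x => single x x 1)
      (fun y => diagonal fun k => (d t y k : ℂ)) h1 sum_single_one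
      (fun y => posSemidef_diagonal_iff.2 fun k => by exact_mod_cast hd t y k) (by
        ext i j
        simp only [Matrix.sum_apply, diagonal_apply, sum_ite_irrel, sum_const_zero, one_apply]
        exact if_congr Iff.rfl (by exact_mod_cast hd1 t i) rfl)
  obtain ⟨π, u, hπ⟩ := exists_protocol h2
  refine ⟨π, fun z t => W z (u t).1, ⟨fun z t => hW.1 _ _, fun z => ?_⟩, le_of_eq ?_⟩
  · rw [u.sum_comp fun q => W z q.1, Fintype.sum_sigma]
    simp only [Fintype.sum_unique, hW.2]
  · rw [trNorm_eq, idealKey_eq]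
    refine Eq.trans (congrArg _ (sub_eq_zero.2 ?_)) traceNorm_zero
    ext ⟨⟨x, y⟩, v, t⟩ ⟨q, v', t'⟩
    simp only [Protocol.finalState, of_apply, hπ, blk_diag, kraus_law _ (hc _)]
    obtain rfl := Subsingleton.elim v v'
    by_cases ht : t = t'
    swap
    · simp [diagState, ht]
    subst ht
    by_cases hq : (x, y) = q
    swap
    · simp [diagState, hq]
    subst hq
    simp only [diagState, diagonal_apply_eq, if_true]
    rw [show degrade (iid n P) (fun z t => W z (u t).1) ((x, y), t) = _ from h x y (u t).1]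
    simp [keyLaw, Fintype.sum_prod_type, single_apply, apply_ite ((↑) : ℝ → ℂ)]

/-- One-time pad. -/
theorem forms_pad {P : (X × X) × Z → ℝ} (hP : ∀ p, 0 ≤ P p) (hP1 : ∑ p, P p = 1) {n ℓ : ℕ}
    (hℓ : Fintype.card X ^ n ≤ 2 ^ ℓ) : Forms P n ℓ 0 := by
  obtain ⟨enc⟩ : Nonempty ((Fin n → X) ↪ (Fin ℓ → Bool)) :=
    Function.Embedding.nonempty_of_card_le (by simpa using hℓ)
  have h1 := iid_sum hP1 n
  have : Nonempty (Fin n → X) := by
    by_contra h0
    rw [not_nonempty_iff] at h0
    simp at h1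
  have hd := Function.leftInverse_invFun enc.injective
  refine forms_of (T := (Fin n → Z) × (Fin ℓ → Bool))
    (fun t x k => ∑ y, if t.2 = enc y + k then iid n P ((x, y), t.1) else 0)
    (fun t y k => if Function.invFun enc (t.2 - k) = y then 1 else 0)
    (fun t x k => sum_nonneg fun y _ => ?_) (fun k => ?_) (fun t y k => ?_) (fun t k => by simp)
    (W := fun z t => if z = t.1 then (2 ^ ℓ)⁻¹ else 0) ⟨fun z t => ?_, fun z => ?_⟩
    fun x y t => ?_
  · split_ifs
    · exact iid_nonneg hP n _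
    · exact le_rfl
  · rw [← h1, Fintype.sum_prod_type, Fintype.sum_prod_type_right]
    refine sum_congr rfl fun z _ => ?_
    rw [Finset.sum_comm, Fintype.sum_prod_type]
    refine sum_congr rfl fun x _ => ?_
    rw [Finset.sum_comm]
    simp only [sum_ite_eq', mem_univ, if_true]
  · split_ifs
    · exact zero_le_one
    · exact le_rfl
  · dsimp only
    split_ifs
    · positivity
    · exact le_rfl
  · simp [Fintype.sum_prod_type_right]
  · simp only [sum_mul]
    simp only [degrade, mul_ite _ (iid n P _), mul_zero, sum_ite_eq', mem_univ, if_true]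
    rw [Finset.sum_comm, sum_eq_single y (fun y' _ hy => sum_eq_zero fun k _ => ?_) (by simp),
      sum_eq_single (t.2 - enc y) (fun k _ hk => ?_) (by simp)]
    · simp [hd y]
    · rw [if_neg fun h => hk (by rw [h, add_sub_cancel_left])]
      simp
    · by_cases h : t.2 = enc y' + k
      · simp [h, hd y', hy]
      · simp [h]

theorem formRate_le {P : (X × X) × Z → ℝ} {c : ℕ} (h : ∀ n, Forms P n (c * n) 0) :
    formRate P ≤ c := by
  refine sInf_le_of_le ⟨fun n => c * n, fun _ => 0, h, tendsto_const_nhds, rfl⟩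
    (limsup_le_of_le (h := ?_))
  filter_upwards [eventually_gt_atTop 0] with n hn
  rw [Nat.cast_mul, mul_div_assoc, div_self (by exact_mod_cast hn.ne'), mul_one]
  exact le_rfl

theorem formRate_nonneg (P : (X × X) × Z → ℝ) : 0 ≤ formRate P := by
  refine le_sInf ?_
  rintro r ⟨ℓ, ε, -, -, rfl⟩
  exact le_limsup_of_frequently_le (Frequently.of_forall fun n =>
    EReal.coe_nonneg.2 (by positivity))

/-- Conditionally independent sources are formed without key. -/
theorem formRate_indep (a b : Z → X → ℝ) (ha : ∀ z x, 0 ≤ a z x) (ha1 : ∑ z, ∑ x, a z x = 1)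
    (hb : ∀ z y, 0 ≤ b z y) (hb1 : ∀ z, ∑ y, b z y = 1) :
    formRate (fun p : (X × X) × Z => a p.2 p.1.1 * b p.2 p.1.2) = 0 := by
  refine le_antisymm ((formRate_le (c := 0) fun n => ?_).trans Nat.cast_zero.le)
    (formRate_nonneg _)
  rw [zero_mul]
  refine forms_of (T := Fin n → Z) (fun t x _ => ∏ i, a (t i) (x i))
    (fun t y _ => ∏ i, b (t i) (y i)) (fun t x _ => prod_nonneg fun i _ => ha _ _) (fun _ => ?_)
    (fun t x _ => prod_nonneg fun i _ => hb _ _) (fun t _ => ?_)
    (W := fun z t => if z = t then 1 else 0) ⟨fun z t => ?_, fun z => by simp⟩ fun x y t => ?_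
  · rw [sum_congr rfl fun t _ => (Fintype.prod_sum fun i x => a (t i) x).symm,
      ← Fintype.prod_sum fun _ z => ∑ x, a z x]
    simp only [ha1, prod_const_one]
  · rw [← Fintype.prod_sum fun i y => b (t i) y]
    simp only [hb1, prod_const_one]
  · dsimp only
    split_ifs
    · exact zero_le_one
    · exact le_rfl
  · simp [degrade, iid, prod_mul_distrib]

/-- A shared secret bit has key rate at least one. -/
theorem keyRate_bit :
    1 ≤ keyRate (diagState fun p : (Bool × Bool) × Unit => if p.1.1 = p.1.2 then 1 / 2 else 0) := by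
  have h0 : ∀ n, ∃ π : Protocol (Fin n → Bool) (Fin n → Bool) (Fin n → Bool), HasError π (power n
      (diagState fun p : (Bool × Bool) × Unit => if p.1.1 = p.1.2 then 1 / 2 else 0)) 0 := by
    intro n
    have h1 : ∀ x : Fin n → Bool, (single x x 1 : Matrix _ _ ℂ).PosSemidef := fun x => by
      rw [← diagonal_single, posSemidef_diagonal_iff]
      intro i
      rw [Pi.single_apply]
      split_ifs <;> simp
    obtain ⟨π, u, hπ⟩ := exists_protocol (LOCC.output (fun x : Fin n → Bool => single x x 1)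
      (fun x : Fin n → Bool => single x x 1) h1 sum_single_one h1 sum_single_one)
    have := u.unique
    refine ⟨π, 1, ⟨PosSemidef.one, by simp⟩, le_of_eq ?_⟩
    rw [trNorm_eq]
    refine Eq.trans (congrArg _ (sub_eq_zero.2 ?_)) traceNorm_zero
    ext ⟨⟨x, y⟩, v, t⟩ ⟨q, v', t'⟩
    obtain rfl := Subsingleton.elim v v'
    obtain rfl := Subsingleton.elim t t'
    simp only [Protocol.finalState, of_apply, hπ, blk_single, if_true, kroneckerMap_apply,
      idealKey_apply, one_apply_eq, mul_one, ite_and, power_diag]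
    refine if_congr Iff.rfl ?_ rfl
    simp only [diagState, diagonal_apply_eq, iid]
    split_ifs with h
    · simp [h]
    · obtain ⟨i, hi⟩ := Function.ne_iff.1 h
      rw [prod_eq_zero (mem_univ i) (if_neg hi), Complex.ofReal_zero]
  choose π hπ using h0
  refine le_sSup_of_le ⟨fun n => n, fun _ => 0, π, hπ, tendsto_const_nhds, rfl⟩
    (le_liminf_of_le (h := ?_))
  filter_upwards [eventually_gt_atTop 0] with n hn
  rw [div_self (by exact_mod_cast hn.ne')]
  exact le_rfl

theorem bound_information {s e : ℝ} (hs : 0 < s) (h4 : s ^ 4 < e) (h3 : 4 * e ≤ s ^ 3) :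
    IsState (diagState (source s e)) ∧
      (∀ (n ℓ : ℕ) (π : Protocol (Fin ℓ → Bool) (Fin n → Fin 3) (Fin n → Fin 3)) (ε : ℝ), 1 ≤ ℓ →
        HasError π (power n (diagState (source s e))) ε → 2 / 3 ≤ ε) ∧
      keyRate (diagState (source s e)) = 0 ∧ 0 < intrinsic (source s e) ∧
      0 < formRate (source s e) ∧ formRate (source s e) ≤ 2 := by
  have he : 0 ≤ e := (pow_pos hs 4).le.trans h4.le
  have hs1 : s ≤ 1 := by
    have := pow_pos hs 3
    nlinarith
  have he1 : e ≤ 1 := by
    have := pow_le_one₀ (n := 3) hs.le hs1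
    linarith
  have hP := source_nonneg hs he he1
  have hP1 := source_sum s e
  obtain ⟨a, b, hab⟩ := source_shadow hs hs1 he h3
  have hk : ∀ (n ℓ : ℕ) (π : Protocol (Fin ℓ → Bool) (Fin n → Fin 3) (Fin n → Fin 3)) (ε : ℝ),
      1 ≤ ℓ → HasError π (power n (diagState (source s e))) ε → 2 / 3 ≤ ε := by
    intro n ℓ π ε hℓ hε
    rw [power_diag] at hε
    exact no_key (iid_nonneg hP n) (iid_sum hP1 n) (hab.pow n) hℓ π hε
  have hκ : 0 < (e - s ^ 4) / (3 * (1 + s ^ 2 + s ^ 4)) := div_pos (sub_pos.2 h4) (by positivity)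
  refine ⟨isState_diag hP hP1, hk, keyRate_eq_zero (fun n => ?_) (by norm_num) hk,
    (source_far hs he he1).intrinsic_pos hκ hP hP1, (source_far hs he he1).formRate_pos hκ hP hP1,
    formRate_le (c := 2) fun n => forms_pad hP hP1 ?_⟩
  · rw [power_diag]
    exact isState_diag (iid_nonneg hP n) (iid_sum hP1 n)
  · rw [pow_mul]
    exact Nat.pow_le_pow_left (by simp) n

end Vale.Agent.N372B
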