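import Vale.Agent.N372B.Form

/-! The explicit source has a shadow and is far from conditional independence. -/

open Finset

namespace Vale.Agent.N372B

/-- The law of `(X, Y)`. -/
noncomputable def law (s : ℝ) (u : Fin 3 × Fin 3) : ℝ :=
  s ^ (2 * (u.2 - u.1).val) / (3 * (1 + s ^ 2 + s ^ 4))

/-- Exponents on the rows of the rectangle without the row `j.1` and the column `j.2`. -/
def ea : Fin 3 → Fin 3 → Fin 3 → ℕ :=
  ![![![0, 0, 1], ![0, 0, 0], ![0, 0, 1]], ![![1, 0, 0], ![1, 0, 0], ![0, 0, 0]],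
    ![![0, 0, 0], ![0, 1, 0], ![0, 1, 0]]]

/-- Exponents on the columns. -/
def eb : Fin 3 → Fin 3 → Fin 3 → ℕ :=
  ![![![0, 3, 2], ![4, 0, 2], ![4, 3, 0]], ![![0, 4, 3], ![2, 0, 3], ![2, 4, 0]],
    ![![0, 2, 4], ![3, 0, 4], ![3, 2, 0]]]

theorem eab : ∀ i j x y : Fin 3, x ≠ i → y ≠ j →
    2 * (y - x).val ≤ ea i j x + eb i j y ∧ ea i j x + eb i j y ≤ 2 * (y - x).val + 3 := by
  decide

theorem third : ∀ x x' : Fin 3, ∃ i, x ≠ i ∧ x' ≠ i := by decide

/-- Alice's factor on a rectangle. -/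
noncomputable def ra (s : ℝ) (j : Fin 3 × Fin 3) (x : Fin 3) : ℝ :=
  if x = j.1 then 0 else s ^ ea j.1 j.2 x / (4 * (3 * (1 + s ^ 2 + s ^ 4)))

/-- Bob's factor on a rectangle. -/
noncomputable def rb (s : ℝ) (j : Fin 3 × Fin 3) (y : Fin 3) : ℝ :=
  if y = j.2 then 0 else s ^ eb j.1 j.2 y

variable {s e : ℝ}

theorem law_pos (hs : 0 < s) (u : Fin 3 × Fin 3) : 0 < law s u := by
  unfold law
  positivity

theorem rect_bounds (hs : 0 < s) (hs1 : s ≤ 1) (j u : Fin 3 × Fin 3) (h1 : u.1 ≠ j.1)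
    (h2 : u.2 ≠ j.2) : s ^ 3 / 4 * law s u ≤ ra s j u.1 * rb s j u.2 ∧
      ra s j u.1 * rb s j u.2 ≤ law s u / 4 := by
  obtain ⟨a1, a2⟩ := eab j.1 j.2 u.1 u.2 h1 h2
  have b1 := pow_le_pow_of_le_one hs.le hs1 a1
  have b2 := pow_le_pow_of_le_one hs.le hs1 a2
  have hc : 0 < (4 * (3 * (1 + s ^ 2 + s ^ 4)))⁻¹ := by positivity
  have e1 : ra s j u.1 * rb s j u.2 =
      s ^ (ea j.1 j.2 u.1 + eb j.1 j.2 u.2) * (4 * (3 * (1 + s ^ 2 + s ^ 4)))⁻¹ := by
    rw [ra, rb, if_neg h1, if_neg h2, pow_add]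
    ring
  have e2 : law s u / 4 = s ^ (2 * (u.2 - u.1).val) * (4 * (3 * (1 + s ^ 2 + s ^ 4)))⁻¹ := by
    rw [law]
    field_simp
  have e3 : s ^ 3 / 4 * law s u =
      s ^ (2 * (u.2 - u.1).val + 3) * (4 * (3 * (1 + s ^ 2 + s ^ 4)))⁻¹ := by
    rw [law, pow_add]
    field_simp
  rw [e1, e2, e3]
  exact ⟨mul_le_mul_of_nonneg_right b2 hc.le, mul_le_mul_of_nonneg_right b1 hc.le⟩

theorem rect_sum (hs : 0 < s) (hs1 : s ≤ 1) (u : Fin 3 × Fin 3) :
    ∑ j, ra s j u.1 * rb s j u.2 ≤ law s u := by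
  have h1 : ∀ j : Fin 3 × Fin 3, ra s j u.1 * rb s j u.2 ≤
      (if u.1 = j.1 then 0 else 1) * (if u.2 = j.2 then 0 else 1) * (law s u / 4) := fun j => by
    by_cases a1 : u.1 = j.1
    · simp [ra, a1]
    by_cases a2 : u.2 = j.2
    · simp [rb, a2]
    rw [if_neg a1, if_neg a2, one_mul, one_mul]
    exact (rect_bounds hs hs1 j u a1 a2).2
  refine (sum_le_sum fun j _ => h1 j).trans (le_of_eq ?_)
  have h2 : ∀ x : Fin 3, ∑ i : Fin 3, (if x = i then (0 : ℝ) else 1) = 2 := fun x => by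
    fin_cases x <;> simp [Fin.sum_univ_three] <;> norm_num
  rw [← sum_mul, Fintype.sum_prod_type]
  have h3 := sum_mul_sum univ univ (fun i : Fin 3 => if u.1 = i then (0 : ℝ) else 1)
    (fun i : Fin 3 => if u.2 = i then (0 : ℝ) else 1)
  rw [← h3, h2, h2]
  ring

theorem source_eq (s e : ℝ) (u : Fin 3 × Fin 3) (z : Option (Fin 3 × Fin 3)) :
    source s e (u, z) = law s u * if z = none then e else if z = some u then 1 - e else 0 := rfl

theorem source_marg (s e : ℝ) (u : Fin 3 × Fin 3) : ∑ z, source s e (u, z) = law s u := by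
  simp only [source_eq, Fintype.sum_option, if_true, reduceCtorEq, if_false, Option.some.injEq,
    mul_ite, mul_zero, sum_ite_eq', mem_univ]
  ring

theorem source_nonneg (hs : 0 < s) (he : 0 ≤ e) (he1 : e ≤ 1) (p) : 0 ≤ source s e p := by
  refine mul_nonneg (law_pos hs p.1).le ?_
  split_ifs
  · exact he
  · linarith
  · exact le_rfl

theorem law_vals (s : ℝ) (i : Fin 3) : law s (i, i) = 1 / (3 * (1 + s ^ 2 + s ^ 4)) ∧
    law s (i, i + 1) = s ^ 2 / (3 * (1 + s ^ 2 + s ^ 4)) ∧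
    law s (i, i + 2) = s ^ 4 / (3 * (1 + s ^ 2 + s ^ 4)) := by
  simp only [law, sub_self, add_sub_cancel_left]
  exact ⟨by simp, rfl, rfl⟩

theorem source_sum (s e : ℝ) : ∑ p, source s e p = 1 := by
  rw [Fintype.sum_prod_type]
  simp only [source_marg, Fintype.sum_prod_type]
  have h : ∀ i : Fin 3, ∑ y, law s (i, y) = 1 / 3 := fun i => by
    rw [← Equiv.sum_comp (Equiv.addLeft i) (fun y => law s (i, y)), Fin.sum_univ_three]
    simp only [Equiv.coe_addLeft, add_zero, law_vals]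
    field_simp
  simp only [h, sum_const, card_univ, Fintype.card_fin]
  norm_num

theorem source_shadow (hs : 0 < s) (hs1 : s ≤ 1) (he : 0 ≤ e) (he3 : 4 * e ≤ s ^ 3) :
    ∃ (a b : (Fin 3 × Fin 3) ⊕ (Fin 3 × Fin 3) → Fin 3 → ℝ),
      Shadow (fun u z => source s e (u, z)) a b := by
  have he1 : e ≤ 1 := by
    have := pow_le_one₀ (n := 3) hs.le hs1
    linarith
  let a : (Fin 3 × Fin 3) ⊕ (Fin 3 × Fin 3) → Fin 3 → ℝ := Sum.elim (ra s) fun v x =>
    if x = v.1 then law s v - ∑ j, ra s j v.1 * rb s j v.2 else 0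
  let b : (Fin 3 × Fin 3) ⊕ (Fin 3 × Fin 3) → Fin 3 → ℝ := Sum.elim (rb s) fun v y =>
    if y = v.2 then 1 else 0
  have ha : ∀ j x, 0 ≤ a j x := by
    rintro (j | v) x
    · simp only [a, Sum.elim_inl, ra]
      split_ifs
      · exact le_rfl
      · positivity
    · simp only [a, Sum.elim_inr]
      split_ifs
      · exact sub_nonneg.mpr (rect_sum hs hs1 v)
      · exact le_rfl
  have hb : ∀ j y, 0 ≤ b j y := by
    rintro (j | v) y
    · simp only [b, Sum.elim_inl, rb]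
      split_ifs
      · exact le_rfl
      · positivity
    · simp only [b, Sum.elim_inr]
      split_ifs
      · exact zero_le_one
      · exact le_rfl
  have hsum : ∀ u : Fin 3 × Fin 3, ∑ j, a j u.1 * b j u.2 = law s u := fun u => by
    rw [Fintype.sum_sum_type]
    simp only [a, b, Sum.elim_inl, Sum.elim_inr]
    rw [Fintype.sum_prod_type (fun v : Fin 3 × Fin 3 => (if u.1 = v.1 then _ else 0) * _)]
    simp only [ite_mul, mul_ite, mul_one, mul_zero, zero_mul, sum_ite_eq, mem_univ, if_true]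
    ring
  refine ⟨a, b, ha, hb, fun u => (hsum u).trans (source_marg s e u).symm, ?_⟩
  refine less_erasure he1 (law_pos hs) (fun u j => mul_nonneg (ha _ _) (hb _ _)) hsum
    (fun u u' => ?_) he
  obtain ⟨i, i1, i2⟩ := third u.1 u'.1
  obtain ⟨k, k1, k2⟩ := third u.2 u'.2
  have h4 : e ≤ s ^ 3 / 4 := by linarith
  exact ⟨Sum.inl (i, k),
    (mul_le_mul_of_nonneg_right h4 (law_pos hs u).le).trans (rect_bounds hs hs1 (i, k) u i1 k1).1,
    (mul_le_mul_of_nonneg_right h4 (law_pos hs u').le).trans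
      (rect_bounds hs hs1 (i, k) u' i2 k2).1⟩

theorem cycle_ineq {u v : Fin 3 → ℝ} (hu : ∀ i, 0 ≤ u i) (hv : ∀ i, 0 ≤ v i) {m : ℝ}
    (h : ∀ i, m ≤ u i * v i) : 3 * m ≤ u 0 * v 2 + u 1 * v 0 + u 2 * v 1 := by
  have a0 := mul_nonneg (hu 0) (hv 2)
  have a1 := mul_nonneg (hu 1) (hv 0)
  have a2 := mul_nonneg (hu 2) (hv 1)
  rcases le_or_gt m 0 with hm | hm
  · linarith
  have h1 : m * m * m ≤ (u 0 * v 2) * (u 1 * v 0) * (u 2 * v 1) := by
    have := mul_le_mul (mul_le_mul (h 0) (h 1) hm.le (hm.le.trans (h 0))) (h 2) hm.le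
      (mul_nonneg (hm.le.trans (h 0)) (hm.le.trans (h 1)))
    linarith [this, (by ring : u 0 * v 0 * (u 1 * v 1) * (u 2 * v 2) =
      (u 0 * v 2) * (u 1 * v 0) * (u 2 * v 1))]
  generalize u 0 * v 2 = x at *
  generalize u 1 * v 0 = y at *
  generalize u 2 * v 1 = z at *
  have h2 : 27 * (x * y * z) ≤ (x + y + z) ^ 3 := by
    nlinarith [mul_nonneg (add_nonneg (add_nonneg a0 a1) a2) (sq_nonneg (x - y)),
      mul_nonneg (add_nonneg (add_nonneg a0 a1) a2) (sq_nonneg (y - z)),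
      mul_nonneg (add_nonneg (add_nonneg a0 a1) a2) (sq_nonneg (x - z)),
      mul_nonneg a0 (sq_nonneg (y - z)), mul_nonneg a1 (sq_nonneg (x - z)),
      mul_nonneg a2 (sq_nonneg (x - y))]
  refine le_of_pow_le_pow_left₀ (n := 3) (by norm_num) (by linarith) ?_
  nlinarith

theorem source_far (hs : 0 < s) (he : 0 ≤ e) (he1 : e ≤ 1) :
    Far (source s e) ((e - s ^ 4) / (3 * (1 + s ^ 2 + s ^ 4))) := by
  intro T _ W hW u v hu hv
  set c : ℝ := 3 * (1 + s ^ 2 + s ^ 4) with hc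
  set R := degrade (source s e) W with hR
  have h1 : ∀ t i, e / c * W none t ≤ R ((i, i), t) := fun t i => by
    have := single_le_sum (f := fun z => source s e ((i, i), z) * W z t)
      (fun z _ => mul_nonneg (source_nonneg hs he he1 _) (hW.1 z t)) (mem_univ none)
    refine le_trans (le_of_eq ?_) this
    simp only [source_eq, if_true, (law_vals s i).1]
    ring
  have h2 : ∀ i : Fin 3, ∑ t, R ((i, i + 2), t) = s ^ 4 / c := fun i => by
    simp only [hR, degrade]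
    rw [Finset.sum_comm]
    simp only [← mul_sum, hW.2, mul_one, source_marg, law_vals, hc]
  have h3 : ∀ t, e / c * W none t ≤ (R ((0, 2), t) + R ((1, 0), t) + R ((2, 1), t)) / 3 +
      ∑ q : Fin 3 × Fin 3, |R (q, t) - u t q.1 * v t q.2| := fun t => by
    have h4 := cycle_ineq (hu t) (hv t) (m := e / c * W none t -
      ∑ i, |R ((i, i), t) - u t i * v t i|) fun i => by
        have a1 := single_le_sum (f := fun i => |R ((i, i), t) - u t i * v t i|)
          (fun _ _ => abs_nonneg _) (mem_univ i)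
        have a2 := le_abs_self (R ((i, i), t) - u t i * v t i)
        have a3 := h1 t i
        linarith
    simp only [Fintype.sum_prod_type, Fin.sum_univ_three] at h4 ⊢
    have b1 := neg_abs_le (R ((0, 2), t) - u t 0 * v t 2)
    have b2 := neg_abs_le (R ((1, 0), t) - u t 1 * v t 0)
    have b3 := neg_abs_le (R ((2, 1), t) - u t 2 * v t 1)
    have b4 := abs_nonneg (R ((0, 2), t) - u t 0 * v t 2)
    have b5 := abs_nonneg (R ((1, 0), t) - u t 1 * v t 0)
    have b6 := abs_nonneg (R ((2, 1), t) - u t 2 * v t 1)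
    have b7 := abs_nonneg (R ((0, 1), t) - u t 0 * v t 1)
    have b8 := abs_nonneg (R ((1, 2), t) - u t 1 * v t 2)
    have b9 := abs_nonneg (R ((2, 0), t) - u t 2 * v t 0)
    linarith
  have h5 := sum_le_sum fun t (_ : t ∈ univ) => h3 t
  have c0 : ∑ t, R ((0, 2), t) = s ^ 4 / c := h2 0
  have c1 : ∑ t, R ((1, 0), t) = s ^ 4 / c := h2 1
  have c2 : ∑ t, R ((2, 1), t) = s ^ 4 / c := h2 2
  rw [← mul_sum, hW.2, sum_add_distrib, ← sum_div, sum_add_distrib, sum_add_distrib, c0, c1,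
    c2] at h5
  rw [Fintype.sum_prod_type_right, sub_div]
  linarith

end Vale.Agent.N372B
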